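import Vale.Agent.P272.BR.Spd

/-! A holomorphic disc of bounded speed stays in a chart for a definite time. -/

open scoped Manifold ContDiff ComplexOrder Topology
open Complex Set Filter Metric

set_option linter.all false

noncomputable section

namespace Vale.Agent.P272.BR

open Vale.Agent.P272.K
open Vale.Agent.P272.K.LIN (Cov)

variable {n : ℕ} {X : Type*} [TopologicalSpace X] [ChartedSpace (Cm n) X]
  {h h' : Chart n X → Cm n → Matrix (Fin n) (Fin n) ℂ} {f g : ℂ → X} {e e' : Chart n X} {z : ℂ}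
  {U V : Set ℂ} {φ : ℂ → ℂ}

/-- `L` compares the metric `h` with the norms of the charts of the cover. -/
def CovConst (𝒞 : Cov (Cm n) X) (h : Chart n X → Cm n → Matrix (Fin n) (Fin n) ℂ) (L : ℝ) : Prop :=
  1 ≤ L ∧ ∀ i, ∀ z ∈ closedBall (𝒞.c i) (3 * 𝒞.r i), ∀ v : Cm n,
      ‖v‖ ^ 2 ≤ L * (quad (h (𝒞.e i) z) v).re ∧ (quad (h (𝒞.e i) z) v).re ≤ L * ‖v‖ ^ 2

variable [IsManifold 𝓘(ℂ, Cm n) ω X] {𝒞 : Cov (Cm n) X} {L C ρ : ℝ} {i : Fin 𝒞.N}

lemma norm_vel_le (hL : CovConst 𝒞 h L) (hh : IsHermitian h) (hC : 0 ≤ C) (hf : HolAt n f z)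
    (hs : spd h f z ≤ C ^ 2) (hi : f z ∈ (𝒞.e i).source)
    (hz : 𝒞.e i (f z) ∈ closedBall (𝒞.c i) (3 * 𝒞.r i)) : ‖vel f (𝒞.e i) z‖ ≤ L * C := by
  have hat : At (𝒞.e i) (f z) := ⟨𝒞.mem i, hi⟩
  have h1 := (hL.2 i _ hz (vel f (𝒞.e i) z)).1
  rw [← spd_eq hh hf hat] at h1
  have hL1 := hL.1
  have h2 : ‖vel f (𝒞.e i) z‖ ^ 2 ≤ (L * C) ^ 2 := by
    calc ‖vel f (𝒞.e i) z‖ ^ 2 ≤ L * spd h f z := h1
      _ ≤ L * C ^ 2 := by gcongr
      _ ≤ L ^ 2 * C ^ 2 := by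
          have : L ≤ L ^ 2 := by nlinarith
          gcongr
      _ = _ := by ring
  exact abs_le_of_sq_le_sq' h2 (by positivity) |>.2

lemma stay [T2Space X] (hL : CovConst 𝒞 h L) (hh : IsHermitian h) (hC : 0 < C)
    (hf : ∀ w ∈ ball z ρ, HolAt n f w ∧ spd h f w ≤ C ^ 2) (hi : f z ∈ (𝒞.e i).source)
    (hz : 𝒞.e i (f z) ∈ ball (𝒞.c i) (𝒞.r i)) {w : ℂ} (hw : w ∈ ball z ρ)
    (hw' : ‖w - z‖ < 𝒞.r i / (L * C)) :
    f w ∈ (𝒞.e i).source ∧ 𝒞.e i (f w) ∈ ball (𝒞.c i) (2 * 𝒞.r i) := by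
  have hL0 : 0 < L := by linarith [hL.1]
  have hr := 𝒞.r_pos i
  set e := 𝒞.e i with hedef
  set r := 𝒞.r i with hrdef
  set c := 𝒞.c i with hcdef
  have hsub : closedBall c (2 * r) ⊆ e.target :=
    (closedBall_subset_closedBall (by linarith)).trans (𝒞.sub i)
  have hρ : 0 < ρ := (dist_nonneg).trans_lt hw
  -- the segment
  set γ : ℝ → ℂ := fun t => z + (t : ℂ) * (w - z) with hγ
  have hγc : Continuous γ := by fun_prop
  have hγm : ∀ t ∈ Icc (0 : ℝ) 1, γ t ∈ ball z ρ := by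
    intro t ht
    rw [mem_ball, dist_eq_norm] at hw ⊢
    have : γ t - z = (t : ℂ) * (w - z) := by simp [hγ]
    rw [this, norm_mul, Complex.norm_real, Real.norm_of_nonneg ht.1]
    calc t * ‖w - z‖ ≤ 1 * ‖w - z‖ := by
          have := ht.2
          gcongr
      _ < ρ := by rw [one_mul]; exact hw
  have hfc : ContinuousOn (fun t => f (γ t)) (Icc (0 : ℝ) 1) := by
    intro t ht
    exact (ContinuousAt.comp (g := f) (hf _ (hγm t ht)).1.1
      hγc.continuousAt).continuousWithinAt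
  set V : Set X := e.source ∩ e ⁻¹' ball c (2 * r) with hV
  have hVo : IsOpen V := e.isOpen_inter_preimage isOpen_ball
  by_contra hbad
  have h1bad : f (γ 1) ∉ V := by
    have : γ 1 = w := by simp [hγ]
    rw [this]
    exact hbad
  -- the first bad time
  have hBc : IsCompact (Icc (0 : ℝ) 1 ∩ (fun t => f (γ t)) ⁻¹' Vᶜ) :=
    isCompact_Icc.of_isClosed_subset
      (hfc.preimage_isClosed_of_isClosed isClosed_Icc hVo.isClosed_compl) inter_subset_left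
  obtain ⟨t₁, ht₁, hmin⟩ := hBc.exists_isLeast ⟨1, ⟨zero_le_one, le_rfl⟩, h1bad⟩
  have hgood : ∀ t ∈ Ico (0 : ℝ) t₁, f (γ t) ∈ V := by
    intro t ht
    by_contra hb
    exact absurd (hmin ⟨⟨ht.1, ht.2.le.trans ht₁.1.2⟩, hb⟩) (not_le.2 ht.2)
  have h0 : γ 0 = z := by simp [hγ]
  have ht₁0 : 0 < t₁ := by
    refine lt_of_le_of_ne ht₁.1.1 fun h0' => ?_
    apply ht₁.2
    show f (γ t₁) ∈ V
    rw [← h0', h0]
    exact ⟨hi, ball_subset_ball (by linarith) hz⟩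
  -- at the first bad time the curve is still in the chart
  set K : Set X := e.symm '' closedBall c (2 * r) with hK
  have hKc : IsClosed K := ((isCompact_closedBall c (2 * r)).image_of_continuousOn
    (e.continuousOn_symm.mono hsub)).isClosed
  have hKmem : ∀ {x : X}, x ∈ K → x ∈ e.source ∧ e x ∈ closedBall c (2 * r) := by
    rintro x ⟨y, hy, rfl⟩
    refine ⟨e.map_target (hsub hy), ?_⟩
    rw [e.right_inv (hsub hy)]; exact hy
  have hin : ∀ t ∈ Icc (0 : ℝ) t₁, f (γ t) ∈ K := by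
    have hcl : IsClosed (Icc (0 : ℝ) t₁ ∩ (fun t => f (γ t)) ⁻¹' K) :=
      (hfc.mono (Icc_subset_Icc le_rfl ht₁.1.2)).preimage_isClosed_of_isClosed isClosed_Icc hKc
    have hsub' : Ico (0 : ℝ) t₁ ⊆ Icc (0 : ℝ) t₁ ∩ (fun t => f (γ t)) ⁻¹' K := by
      intro t ht
      refine ⟨Ico_subset_Icc_self ht, ?_⟩
      have h3 := hgood t ht
      exact ⟨e (f (γ t)), ball_subset_closedBall h3.2, e.left_inv h3.1⟩
    have h4 := hcl.closure_subset_iff.2 hsub'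
    rw [closure_Ico ht₁0.ne] at h4
    exact fun t ht => (h4 ht).2
  -- mean value inequality
  have hder : ∀ t ∈ Icc (0 : ℝ) t₁, HasDerivWithinAt (fun t => e (f (γ t)))
      ((w - z) • vel f e (γ t)) (Icc 0 t₁) t := by
    intro t ht
    have hat : At e (f (γ t)) := ⟨𝒞.mem i, (hKmem (hin t ht)).1⟩
    have h5 : HasDerivAt (fun ζ => e (f ζ)) (vel f e (γ t)) (γ t) :=
      (hf _ (hγm t ⟨ht.1, ht.2.trans ht₁.1.2⟩)).1.hasDerivAt hat
    have h6 : HasDerivAt γ (w - z) t := by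
      have h7 : HasDerivAt (fun t : ℝ => (t : ℂ)) 1 t := Complex.ofRealCLM.hasDerivAt
      have h8 := (h7.mul_const (w - z)).const_add z
      simpa [hγ] using h8
    exact (HasDerivAt.scomp (g₁ := fun ζ => e (f ζ)) t h5 h6).hasDerivWithinAt
  have hbd : ∀ t ∈ Ico (0 : ℝ) t₁, ‖(w - z) • vel f e (γ t)‖ ≤ ‖w - z‖ * (L * C) := by
    intro t ht
    have ht' := Ico_subset_Icc_self ht
    have h9 := hf _ (hγm t ⟨ht'.1, ht'.2.trans ht₁.1.2⟩)
    rw [norm_smul]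
    have h10 := norm_vel_le (i := i) hL hh hC.le h9.1 h9.2 (hKmem (hin t ht')).1
      (closedBall_subset_closedBall (by linarith) (hKmem (hin t ht')).2)
    gcongr
  have hmv := norm_image_sub_le_of_norm_deriv_le_segment' hder hbd t₁ ⟨ht₁0.le, le_rfl⟩
  apply ht₁.2
  refine ⟨(hKmem (hin t₁ ⟨ht₁0.le, le_rfl⟩)).1, ?_⟩
  show e (f (γ t₁)) ∈ ball c (2 * r)
  have h11 : ‖w - z‖ * (L * C) * (t₁ - 0) < r := by
    have h12 : ‖w - z‖ * (L * C) < r := by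
      rwa [lt_div_iff₀ (by positivity)] at hw'
    have h13 : ‖w - z‖ * (L * C) * (t₁ - 0) ≤ ‖w - z‖ * (L * C) * 1 := by
      have := ht₁.1.2
      gcongr
      linarith
    linarith
  rw [mem_ball, dist_eq_norm] at hz ⊢
  calc ‖e (f (γ t₁)) - c‖ ≤ ‖e (f (γ t₁)) - e (f (γ 0))‖ + ‖e (f (γ 0)) - c‖ := by
        have := norm_add_le (e (f (γ t₁)) - e (f (γ 0))) (e (f (γ 0)) - c)
        rwa [sub_add_sub_cancel] at this
    _ < r + r := by
        rw [h0]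
        rw [h0] at hmv
        linarith
    _ = 2 * r := by ring

/-- in a chart of the cover, a disc of bounded speed is Lipschitz -/
lemma lip [T2Space X] (hL : CovConst 𝒞 h L) (hh : IsHermitian h) (hC : 0 < C)
    (hf : ∀ w ∈ ball z ρ, HolAt n f w ∧ spd h f w ≤ C ^ 2) (hi : f z ∈ (𝒞.e i).source)
    (hz : 𝒞.e i (f z) ∈ ball (𝒞.c i) (𝒞.r i)) {δ : ℝ} (hδ : δ ≤ ρ) (hδ' : δ ≤ 𝒞.r i / (L * C)) :
    (∀ w ∈ ball z δ, f w ∈ (𝒞.e i).source ∧ 𝒞.e i (f w) ∈ ball (𝒞.c i) (2 * 𝒞.r i)) ∧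
    DifferentiableOn ℂ (fun w => 𝒞.e i (f w)) (ball z δ) ∧
    ∀ w ∈ ball z δ, ∀ w' ∈ ball z δ,
      ‖𝒞.e i (f w) - 𝒞.e i (f w')‖ ≤ L * C * ‖w - w'‖ := by
  have h1 : ∀ w ∈ ball z δ, f w ∈ (𝒞.e i).source ∧
      𝒞.e i (f w) ∈ ball (𝒞.c i) (2 * 𝒞.r i) := fun w hw =>
    stay hL hh hC hf hi hz (ball_subset_ball hδ hw)
      (by rw [mem_ball, dist_eq_norm] at hw; exact hw.trans_le hδ')
  have h2 : ∀ w ∈ ball z δ, DifferentiableAt ℂ (fun w => 𝒞.e i (f w)) w := fun w hw =>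
    (hf w (ball_subset_ball hδ hw)).1.2 _ ⟨𝒞.mem i, (h1 w hw).1⟩
  refine ⟨h1, fun w hw => (h2 w hw).differentiableWithinAt, fun w hw w' hw' => ?_⟩
  refine (convex_ball z δ).norm_image_sub_le_of_norm_deriv_le (f := fun w => 𝒞.e i (f w)) h2
    (fun u hu => ?_) hw' hw
  have h3 := hf u (ball_subset_ball hδ hu)
  exact norm_vel_le (i := i) hL hh hC.le h3.1 h3.2 (h1 u hu).1
    ((ball_subset_closedBall.trans (closedBall_subset_closedBall
      (by linarith [𝒞.r_pos i]))) (h1 u hu).2)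

end Vale.Agent.P272.BR
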