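import Vale.Agent.P272.BR.Defs
import Vale.Agent.P272.K.LIN.Cov
import Mathlib.Analysis.Complex.LocallyUniformLimit
import Mathlib.Analysis.Complex.CauchyIntegral

/-! Calculus of the speed: composition, continuity, comparison of metrics, convergence. -/

open scoped Manifold ContDiff ComplexOrder Topology
open Complex Set Filter Metric

set_option linter.all false

noncomputable section

namespace Vale.Agent.P272.BR

open Vale.Agent.P272.K
open Vale.Agent.P272.K.LIN (Cov)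

variable {n : ℕ} {X : Type*} [TopologicalSpace X] [ChartedSpace (Cm n) X]
  {h h' : Chart n X → Cm n → Matrix (Fin n) (Fin n) ℂ} {f g : ℂ → X} {e e' : Chart n X} {z : ℂ}
  {U V : Set ℂ} {φ : ℂ → ℂ}

/-! ### composition -/

lemma HolAt.comp (hf : HolAt n f (φ z)) (hφ : DifferentiableAt ℂ φ z) :
    HolAt n (fun ζ => f (φ ζ)) z :=
  ⟨ContinuousAt.comp (g := f) hf.1 hφ.continuousAt, fun e he =>
    DifferentiableAt.comp (g := fun ζ => e (f ζ)) z (hf.2 e he) hφ⟩

lemma HolOn.comp (hf : HolOn n f U) (hφ : ∀ z ∈ V, DifferentiableAt ℂ φ z ∧ φ z ∈ U) :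
    HolOn n (fun ζ => f (φ ζ)) V := fun z hz =>
  HolAt.comp (hf _ (hφ z hz).2) (hφ z hz).1

lemma vel_comp (hf : HolAt n f (φ z)) (hφ : DifferentiableAt ℂ φ z) (he : At e (f (φ z))) :
    vel (fun ζ => f (φ ζ)) e z = deriv φ z • vel f e (φ z) := by
  have h1 : HasDerivAt (fun ζ => e (f (φ ζ))) (deriv φ z • vel f e (φ z)) z :=
    HasDerivAt.scomp (g₁ := fun ζ => e (f ζ)) z (hf.hasDerivAt he) hφ.hasDerivAt
  exact h1.deriv

lemma quad_smul' (M : Matrix (Fin n) (Fin n) ℂ) (a : ℂ) (v : Cm n) :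
    (quad M (a • v)).re = ‖a‖ ^ 2 * (quad M v).re := by
  have h1 : quad M (a • v) = ((‖a‖ ^ 2 : ℝ) : ℂ) * quad M v := by
    unfold quad
    rw [Finset.mul_sum]
    refine Finset.sum_congr rfl fun i _ => ?_
    rw [Finset.mul_sum]
    refine Finset.sum_congr rfl fun j _ => ?_
    have hb : a * cj a = ((‖a‖ ^ 2 : ℝ) : ℂ) := by
      simp [cj, Complex.mul_conj, Complex.normSq_eq_norm_sq]
    rw [← hb]
    simp only [Pi.smul_apply, smul_eq_mul, cj, map_mul]
    ring
  rw [h1, Complex.re_ofReal_mul]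

lemma spd_comp (hf : HolAt n f (φ z)) (hφ : DifferentiableAt ℂ φ z) :
    spd h (fun ζ => f (φ ζ)) z = ‖deriv φ z‖ ^ 2 * spd h f (φ z) := by
  unfold spd
  rw [vel_comp hf hφ (at_chartAt _), quad_smul']

/-! ### norms in charts -/

lemma norm_sq_le_quad_one (v : Cm n) : ‖v‖ ^ 2 ≤ (quad (1 : Matrix (Fin n) (Fin n) ℂ) v).re := by
  have h1 : (quad (1 : Matrix (Fin n) (Fin n) ℂ) v).re = ∑ i, ‖v i‖ ^ 2 := by
    unfold quad
    simp only [Matrix.one_apply, ite_mul, one_mul, zero_mul, Finset.sum_ite_eq, Finset.mem_univ,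
      if_true, cj, Complex.mul_conj, Complex.re_sum, Complex.ofReal_re,
      Complex.normSq_eq_norm_sq]
  rw [h1]
  have h2 : ‖v‖ ≤ √(∑ i, ‖v i‖ ^ 2) := by
    refine (pi_norm_le_iff_of_nonneg (Real.sqrt_nonneg _)).2 fun i => ?_
    refine Real.le_sqrt_of_sq_le ?_
    exact Finset.single_le_sum (f := fun i => ‖v i‖ ^ 2) (fun i _ => sq_nonneg _)
      (Finset.mem_univ i)
  have h3 : 0 ≤ ∑ i, ‖v i‖ ^ 2 := Finset.sum_nonneg fun i _ => sq_nonneg _
  calc ‖v‖ ^ 2 ≤ (√(∑ i, ‖v i‖ ^ 2)) ^ 2 := pow_le_pow_left₀ (norm_nonneg _) h2 2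
    _ = _ := Real.sq_sqrt h3

lemma quad_one_le (v : Cm n) : (quad (1 : Matrix (Fin n) (Fin n) ℂ) v).re ≤ n * ‖v‖ ^ 2 := by
  have h1 : (quad (1 : Matrix (Fin n) (Fin n) ℂ) v).re = ∑ i, ‖v i‖ ^ 2 := by
    unfold quad
    simp only [Matrix.one_apply, ite_mul, one_mul, zero_mul, Finset.sum_ite_eq, Finset.mem_univ,
      if_true, cj, Complex.mul_conj, Complex.re_sum, Complex.ofReal_re,
      Complex.normSq_eq_norm_sq]
  rw [h1]
  calc ∑ i, ‖v i‖ ^ 2 ≤ ∑ _i : Fin n, ‖v‖ ^ 2 := Finset.sum_le_sum fun i _ => by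
        have := norm_le_pi_norm v i
        gcongr
    _ = n * ‖v‖ ^ 2 := by simp

lemma continuousOn_entry (hh : IsHermitian h) (he : e ∈ atlas (Cm n) X) (i j : Fin n) :
    ContinuousOn (fun z => h e z i j) e.target := by
  intro z hz
  have h1 := hh.smooth e (e.symm z) (At.of_target he hz) i j
  rw [e.right_inv hz] at h1
  exact h1.continuousAt.continuousWithinAt

lemma posDef_target (hh : IsHermitian h) (he : e ∈ atlas (Cm n) X) {z : Cm n}
    (hz : z ∈ e.target) : (h e z).PosDef := by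
  have h1 := hh.posDef e (e.symm z) (At.of_target he hz)
  rwa [e.right_inv hz] at h1

lemma quad_continuousOn (hh : IsHermitian h) (he : e ∈ atlas (Cm n) X) :
    ContinuousOn (fun p : Cm n × Cm n => (quad (h e p.1) p.2).re) (e.target ×ˢ univ) := by
  refine Complex.continuous_re.comp_continuousOn ?_
  unfold quad
  refine continuousOn_finset_sum _ fun i _ => continuousOn_finset_sum _ fun j _ => ?_
  refine ((continuousOn_entry hh he i j).comp continuous_fst.continuousOn fun p hp => hp.1).mul ?_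
  exact (((continuous_apply i).comp continuous_snd).mul
    (Complex.continuous_conj.comp ((continuous_apply j).comp continuous_snd))).continuousOn

/-- uniform comparison with the norm of the charts -/
lemma exists_cov_const (𝒞 : Cov (Cm n) X) (hh : IsHermitian h) :
    ∃ L : ℝ, 1 ≤ L ∧ ∀ i, ∀ z ∈ closedBall (𝒞.c i) (3 * 𝒞.r i), ∀ v : Cm n,
      ‖v‖ ^ 2 ≤ L * (quad (h (𝒞.e i) z) v).re ∧ (quad (h (𝒞.e i) z) v).re ≤ L * ‖v‖ ^ 2 := by
  have key : ∀ i, ∃ L : ℝ, 1 ≤ L ∧ ∀ z ∈ closedBall (𝒞.c i) (3 * 𝒞.r i), ∀ v : Cm n,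
      ‖v‖ ^ 2 ≤ L * (quad (h (𝒞.e i) z) v).re ∧ (quad (h (𝒞.e i) z) v).re ≤ L * ‖v‖ ^ 2 := by
    intro i
    have hc := isCompact_closedBall (𝒞.c i) (3 * 𝒞.r i)
    obtain ⟨C, hC, hb⟩ := exists_quad_lower hc (fun z => h (𝒞.e i) z) (fun _ => 1)
      (fun p q => (continuousOn_entry hh (𝒞.mem i) p q).mono (𝒞.sub i))
      (fun i j => continuousOn_const) (fun z hz => posDef_target hh (𝒞.mem i) (𝒞.sub i hz))
    obtain ⟨C', hC', hb'⟩ := exists_quad_lower hc (fun _ => 1) (fun z => h (𝒞.e i) z)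
      (fun i j => continuousOn_const)
      (fun p q => (continuousOn_entry hh (𝒞.mem i) p q).mono (𝒞.sub i))
      (fun z hz => Matrix.PosDef.one)
    refine ⟨1 + C + C' * n, ?_, fun z hz v => ⟨?_, ?_⟩⟩
    · have : 0 ≤ C' * n := by positivity
      linarith
    · have h1 := hb z hz v
      have h2 := norm_sq_le_quad_one v
      have h3 : 0 ≤ (quad (h (𝒞.e i) z) v).re :=
        quad_nonneg (posDef_target hh (𝒞.mem i) (𝒞.sub i hz)).posSemidef v
      have h4 : 0 ≤ C' * n := by positivity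
      nlinarith
    · have h1 := hb' z hz v
      have h2 := quad_one_le v
      have h3 : 0 ≤ ‖v‖ ^ 2 := by positivity
      have h4 : C' * (quad (1 : Matrix (Fin n) (Fin n) ℂ) v).re ≤ C' * (n * ‖v‖ ^ 2) := by gcongr
      nlinarith
  choose L hL1 hL using key
  refine ⟨1 + ∑ i, L i, ?_, fun i z hz v => ?_⟩
  · have : 0 ≤ ∑ i, L i := Finset.sum_nonneg fun i _ => by linarith [hL1 i]
    linarith
  · have h1 : L i ≤ 1 + ∑ i, L i := by
      have := Finset.single_le_sum (f := L) (fun i _ => by linarith [hL1 i]) (Finset.mem_univ i)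
      linarith
    have h3 : 0 ≤ (quad (h (𝒞.e i) z) v).re :=
      quad_nonneg (posDef_target hh (𝒞.mem i) (𝒞.sub i hz)).posSemidef v
    have h4 : 0 ≤ ‖v‖ ^ 2 := by positivity
    exact ⟨(hL i z hz v).1.trans (by gcongr), (hL i z hz v).2.trans (by gcongr)⟩

variable [IsManifold 𝓘(ℂ, Cm n) ω X]

/-- two Hermitian metrics on a compact manifold are comparable -/
lemma exists_compare [CompactSpace X] (hh : IsHermitian h) (hh' : IsHermitian h') :
    ∃ C : ℝ, 0 < C ∧ ∀ e x, At e x → ∀ v : Cm n,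
      (quad (h' e (e x)) v).re ≤ C * (quad (h e (e x)) v).re := by
  obtain ⟨𝒞⟩ := Cov.nonempty (Cm n) X
  obtain ⟨L, hL1, hL⟩ := exists_cov_const 𝒞 hh
  obtain ⟨L', hL1', hL'⟩ := exists_cov_const 𝒞 hh'
  refine ⟨L' * L, by positivity, fun e x he v => ?_⟩
  obtain ⟨i, hi, hx⟩ := 𝒞.cover x
  have hat : At (𝒞.e i) x := ⟨𝒞.mem i, hi⟩
  have hmem : 𝒞.e i x ∈ closedBall (𝒞.c i) (3 * 𝒞.r i) :=
    ball_subset_closedBall (ball_subset_ball (by linarith [𝒞.r_pos i]) hx)
  have h1 : (quad (h e (e x)) v).re = (quad (h (𝒞.e i) (𝒞.e i x)) ((jacM e (𝒞.e i) x).mulVec v)).re := by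
    rw [hh.change e (𝒞.e i) x he hat, quad_change]
  have h1' : (quad (h' e (e x)) v).re =
      (quad (h' (𝒞.e i) (𝒞.e i x)) ((jacM e (𝒞.e i) x).mulVec v)).re := by
    rw [hh'.change e (𝒞.e i) x he hat, quad_change]
  rw [h1, h1']
  set u := (jacM e (𝒞.e i) x).mulVec v
  calc (quad (h' (𝒞.e i) (𝒞.e i x)) u).re ≤ L' * ‖u‖ ^ 2 := (hL' i _ hmem u).2
    _ ≤ L' * (L * (quad (h (𝒞.e i) (𝒞.e i x)) u).re) := by
        have := (hL i _ hmem u).1
        gcongr
    _ = _ := by ring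

lemma exists_spd_le [CompactSpace X] (hh : IsHermitian h) (hh' : IsHermitian h') :
    ∃ C : ℝ, 0 < C ∧ ∀ (f : ℂ → X) (z : ℂ), spd h' f z ≤ C * spd h f z := by
  obtain ⟨C, hC, hb⟩ := exists_compare hh hh'
  exact ⟨C, hC, fun f z => hb _ _ (at_chartAt _) _⟩

/-! ### continuity of the speed -/

lemma HolOn.eventually (hU : IsOpen U) (hf : HolOn n f U) (hz : z ∈ U) (he : At e (f z)) :
    ∀ᶠ ζ in 𝓝 z, ζ ∈ U ∧ At e (f ζ) ∧ HolAt n f ζ := by
  filter_upwards [hU.mem_nhds hz, HolAt.eventually_at (hf z hz).1 he] with ζ h1 h2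
  exact ⟨h1, h2, hf ζ h1⟩

/-- around a point of `U` there is a disc on which `e ∘ f` is holomorphic -/
lemma HolOn.exists_ball (hU : IsOpen U) (hf : HolOn n f U) (hz : z ∈ U) (he : At e (f z)) :
    ∃ ρ > 0, ball z ρ ⊆ U ∧ (∀ ζ ∈ ball z ρ, At e (f ζ)) ∧
      DifferentiableOn ℂ (fun ζ => e (f ζ)) (ball z ρ) := by
  obtain ⟨ρ, hρ, hb⟩ := Metric.eventually_nhds_iff_ball.1 (hf.eventually hU hz he)
  exact ⟨ρ, hρ, fun ζ hζ => (hb ζ hζ).1, fun ζ hζ => (hb ζ hζ).2.1, fun ζ hζ =>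
    ((hb ζ hζ).2.2.2 e (hb ζ hζ).2.1).differentiableWithinAt⟩

lemma HolOn.continuousAt_vel (hU : IsOpen U) (hf : HolOn n f U) (hz : z ∈ U)
    (he : At e (f z)) : ContinuousAt (vel f e) z := by
  obtain ⟨ρ, hρ, h1, h2, h3⟩ := hf.exists_ball hU hz he
  exact ((h3.deriv isOpen_ball).continuousOn).continuousAt (ball_mem_nhds z hρ)

/-- convergence of the quadratic forms -/
lemma tendsto_quad {ι : Type*} {l : Filter ι} (hh : IsHermitian h) {x : X} (he : At e x)
    {a : ι → Cm n} {v : ι → Cm n} {v₀ : Cm n} (ha : Tendsto a l (𝓝 (e x)))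
    (hv : Tendsto v l (𝓝 v₀)) :
    Tendsto (fun k => (quad (h e (a k)) (v k)).re) l (𝓝 (quad (h e (e x)) v₀).re) := by
  have h0 : (e.target ×ˢ univ : Set (Cm n × Cm n)) ∈ 𝓝 (e x, v₀) :=
    prod_mem_nhds (e.open_target.mem_nhds he.mem_target) univ_mem
  have h1 : ContinuousAt (fun p : Cm n × Cm n => (quad (h e p.1) p.2).re) (e x, v₀) :=
    (quad_continuousOn hh he.1).continuousAt h0
  have h2 : Tendsto (fun k => (a k, v k)) l (𝓝 (e x, v₀)) := ha.prodMk_nhds hv
  have h3 := h1.tendsto.comp h2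
  simpa only [Function.comp_def] using h3

lemma HolOn.continuousOn_spd (hU : IsOpen U) (hh : IsHermitian h) (hf : HolOn n f U) :
    ContinuousOn (spd h f) U := by
  intro z hz
  refine ContinuousAt.continuousWithinAt ?_
  have he := at_chartAt (n := n) (f z)
  set e := chartAt (Cm n) (f z) with hedef
  have h1 : ContinuousAt (fun ζ => (quad (h e (e (f ζ))) (vel f e ζ)).re) z := by
    have h2 : ContinuousAt (fun ζ => e (f ζ)) z := ((hf z hz).2 e he).continuousAt
    exact tendsto_quad hh he h2 (hf.continuousAt_vel hU hz he)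
  refine h1.congr ?_
  filter_upwards [hf.eventually hU hz he] with ζ hζ
  exact (spd_eq hh hζ.2.2 hζ.2.1).symm

/-! ### convergence -/

section conv
variable {F : ℕ → ℂ → X} {s : ℕ → ℂ}

lemma ConvOn.mono (hc : ConvOn n F g U) (hV : V ⊆ U) (hVo : IsOpen V) : ConvOn n F g V := by
  intro z hz e he
  obtain ⟨ρ, hρ, h1, h2, h3, h4⟩ := hc z (hV hz) e he
  obtain ⟨δ, hδ, hb⟩ := Metric.isOpen_iff.1 hVo z hz
  have hs1 : ball z (min ρ δ) ⊆ ball z ρ := ball_subset_ball (min_le_left _ _)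
  refine ⟨min ρ δ, lt_min hρ hδ, (ball_subset_ball (min_le_right _ _)).trans hb,
    fun w hw => h2 w (hs1 hw), ?_, h4.mono hs1⟩
  filter_upwards [h3] with k hk w hw using hk w (hs1 hw)

lemma ConvOn.subseq (hc : ConvOn n F g U) {φ : ℕ → ℕ} (hφ : Tendsto φ atTop atTop) :
    ConvOn n (fun k => F (φ k)) g U := by
  intro z hz e he
  obtain ⟨ρ, hρ, h1, h2, h3, h4⟩ := hc z hz e he
  refine ⟨ρ, hρ, h1, h2, hφ.eventually h3, fun u hu => hφ.eventually (h4 u hu)⟩

/-- eventually everything happens in the chart -/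
lemma ConvOn.eventually (hc : ConvOn n F g U) (hz : z ∈ U) (he : At e (g z))
    (hs : Tendsto s atTop (𝓝 z)) :
    ∀ᶠ k in atTop, At e (F k (s k)) ∧ HolAt n (F k) (s k) := by
  obtain ⟨ρ, hρ, h1, h2, h3, h4⟩ := hc z hz e he
  filter_upwards [h3, hs.eventually (ball_mem_nhds z hρ)] with k hk hk'
  exact hk _ hk'

lemma ConvOn.chart_along (hc : ConvOn n F g U) (hg : HolOn n g U) (hz : z ∈ U)
    (he : At e (g z)) (hs : Tendsto s atTop (𝓝 z)) :
    Tendsto (fun k => e (F k (s k))) atTop (𝓝 (e (g z))) := by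
  obtain ⟨ρ, hρ, h1, h2, h3, h4⟩ := hc z hz e he
  have hcont : ContinuousAt (fun w => e (g w)) z := ((hg z hz).2 e he).continuousAt
  have hs' : Tendsto s atTop (𝓝[ball z ρ] z) :=
    tendsto_nhdsWithin_iff.2 ⟨hs, hs.eventually (ball_mem_nhds z hρ)⟩
  exact h4.tendsto_comp hcont.continuousWithinAt hs'

lemma ConvOn.along (hc : ConvOn n F g U) (hg : HolOn n g U) (hz : z ∈ U)
    (hs : Tendsto s atTop (𝓝 z)) :
    Tendsto (fun k => F k (s k)) atTop (𝓝 (g z)) := by
  have he := at_chartAt (n := n) (g z)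
  set e := chartAt (Cm n) (g z)
  have h1 := hc.chart_along hg hz he hs
  have h2 : Tendsto (fun k => e.symm (e (F k (s k)))) atTop (𝓝 (e.symm (e (g z)))) :=
    (e.continuousAt_symm he.mem_target).tendsto.comp h1
  rw [he.left_inv] at h2
  refine h2.congr' ?_
  filter_upwards [hc.eventually hz he hs] with k hk
  exact hk.1.left_inv

lemma ConvOn.tendsto (hc : ConvOn n F g U) (hg : HolOn n g U) (hz : z ∈ U) :
    Tendsto (fun k => F k z) atTop (𝓝 (g z)) := hc.along hg hz tendsto_const_nhds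

lemma ConvOn.vel_along (hc : ConvOn n F g U) (hg : HolOn n g U) (hz : z ∈ U)
    (he : At e (g z)) (hs : Tendsto s atTop (𝓝 z)) :
    Tendsto (fun k => vel (F k) e (s k)) atTop (𝓝 (vel g e z)) := by
  obtain ⟨ρ, hρ, h1, h2, h3, h4⟩ := hc z hz e he
  have hd : ∀ᶠ k in atTop, DifferentiableOn ℂ (fun w => e (F k w)) (ball z ρ) := by
    filter_upwards [h3] with k hk w hw
    exact ((hk w hw).2.2 e (hk w hw).1).differentiableWithinAt
  have h5 : TendstoLocallyUniformlyOn (fun k => deriv (fun w => e (F k w)))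
      (deriv fun w => e (g w)) atTop (ball z ρ) :=
    (h4.tendstoLocallyUniformlyOn).deriv hd isOpen_ball
  have hgd : DifferentiableOn ℂ (fun w => e (g w)) (ball z ρ) := fun w hw =>
    ((hg w (h1 hw)).2 e (h2 w hw)).differentiableWithinAt
  have h6 : ContinuousAt (deriv fun w => e (g w)) z :=
    ((hgd.deriv isOpen_ball).continuousOn).continuousAt (ball_mem_nhds z hρ)
  have hs' : Tendsto s atTop (𝓝[ball z ρ] z) :=
    tendsto_nhdsWithin_iff.2 ⟨hs, hs.eventually (ball_mem_nhds z hρ)⟩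
  exact tendsto_comp_of_locally_uniform_limit_within h6.continuousWithinAt hs'
    (fun u hu => h5 u hu z (mem_ball_self hρ))

lemma ConvOn.spd_along (hc : ConvOn n F g U) (hh : IsHermitian h) (hg : HolOn n g U)
    (hz : z ∈ U) (hs : Tendsto s atTop (𝓝 z)) :
    Tendsto (fun k => spd h (F k) (s k)) atTop (𝓝 (spd h g z)) := by
  have he := at_chartAt (n := n) (g z)
  set e := chartAt (Cm n) (g z)
  have h1 := tendsto_quad hh he (hc.chart_along hg hz he hs) (hc.vel_along hg hz he hs)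
  rw [spd_eq hh (hg z hz) he]
  refine h1.congr' ?_
  filter_upwards [hc.eventually hz he hs] with k hk
  exact (spd_eq hh hk.2 hk.1).symm

lemma ConvOn.spd (hc : ConvOn n F g U) (hh : IsHermitian h) (hg : HolOn n g U)
    (hz : z ∈ U) : Tendsto (fun k => BR.spd h (F k) z) atTop (𝓝 (BR.spd h g z)) :=
  hc.spd_along hh hg hz tendsto_const_nhds

end conv

end Vale.Agent.P272.BR
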