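import Vale.Agent.P272.BR.Brody
import Vale.Agent.P272.HY.Blocks

/-! The block `HY.B2` (Brody). -/

open scoped Manifold ContDiff ComplexOrder Topology
open Metric

noncomputable section

namespace Vale.Agent.P272.HY

open Vale.Agent.P272.K

theorem b2 {n : ℕ} {X : Type} [TopologicalSpace X] [ChartedSpace (Cm n) X] [T2Space X]
    [CompactSpace X] [IsManifold 𝓘(ℂ, Cm n) ω X] : B2 n X := by
  intro w hw hX
  obtain ⟨M, hM, hb⟩ := BR.brody_bound' hX hw
  exact ⟨M, hM, fun f hf => (hb f hf).1⟩

end Vale.Agent.P272.HY
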