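import Vale.Agent.P272.BR.Pull
import Vale.Agent.P272.HY.Blocks

/-! Block B4: existence of the extremal disc, in the frozen form; the bound `DiscBound` from the
bound at the centre. -/

open scoped Manifold ContDiff ComplexOrder Topology ENNReal
open Complex Set Filter Metric MeasureTheory

set_option linter.all false

noncomputable section

namespace Vale.Agent.P272.BR

open Vale.Agent.P272.K Vale.Agent.P272.GJ

section
variable {n : ℕ} {X : Type*} [TopologicalSpace X] [ChartedSpace (Cm n) X]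
  {h w w' : Chart n X → Cm n → Matrix (Fin n) (Fin n) ℂ} {f : ℂ → X}

lemma HY_TE_eq (w : Chart n X → Cm n → Matrix (Fin n) (Fin n) ℂ) (r : ℝ) (f : ℂ → X) :
    HY.TE w r f = TE w f r := rfl

variable [IsManifold 𝓘(ℂ, Cm n) ω X]

/-- a bound of `|f'(0)|²` for all discs gives `|f'(z)|² ≤ M / (1 - |z|)²` -/
theorem discBound_of_zero {M : ℝ} (hM : ∀ f : ℂ → X, HolOn n f (ball (0:ℂ) 1) → spd w f 0 ≤ M) :
    DiscBound w M := by
  intro f hf z hz
  have hz1 : ‖z‖ < 1 := by simpa using hz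
  set c : ℝ := 1 - ‖z‖ with hc
  have hc0 : 0 < c := by rw [hc]; linarith
  set φ : ℂ → ℂ := fun ζ => z + c * ζ with hφ
  have hd : ∀ ζ : ℂ, HasDerivAt φ c ζ := by
    intro ζ
    have h1 : HasDerivAt (fun ζ : ℂ => z + c * ζ) ((c : ℂ) * 1) ζ :=
      ((hasDerivAt_id' ζ).const_mul (c : ℂ)).const_add z
    rwa [mul_one] at h1
  have hm : ∀ ζ ∈ ball (0:ℂ) 1, φ ζ ∈ ball (0:ℂ) 1 := by
    intro ζ hζ
    have h1 : ‖ζ‖ < 1 := by simpa using hζ
    simp only [mem_ball_zero_iff, hφ]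
    calc ‖z + c * ζ‖ ≤ ‖z‖ + ‖(c : ℂ) * ζ‖ := norm_add_le _ _
      _ = ‖z‖ + c * ‖ζ‖ := by rw [norm_mul, Complex.norm_of_nonneg hc0.le]
      _ < ‖z‖ + c * 1 := by
        have := mul_lt_mul_of_pos_left h1 hc0
        linarith
      _ = 1 := by rw [hc]; ring
  have hcomp : HolOn n (fun ζ => f (φ ζ)) (ball (0:ℂ) 1) :=
    hf.comp fun ζ hζ => ⟨(hd ζ).differentiableAt, hm ζ hζ⟩
  have h1 := hM _ hcomp
  have h2 : spd w (fun ζ => f (φ ζ)) 0 = ‖deriv φ 0‖ ^ 2 * spd w f (φ 0) :=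
    spd_comp (hf _ (hm 0 (by simp))) (hd 0).differentiableAt
  have h3 : φ 0 = z := by simp [hφ]
  rw [h2, (hd 0).deriv, h3, Complex.norm_of_nonneg hc0.le] at h1
  rw [le_div_iff₀ (by positivity)]
  linarith

lemma DiscBound.zero {M : ℝ} (hM : DiscBound w M) : ∀ f : ℂ → X, HolOn n f (ball (0:ℂ) 1) →
    spd w f 0 ≤ M := fun f hf => by simpa using hM f hf 0 (by simp)

end

end Vale.Agent.P272.BR

namespace Vale.Agent.P272.HY

open Vale.Agent.P272.K

/-- **B4** -/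
theorem b4 (n : ℕ) (X : Type) [TopologicalSpace X] [T2Space X] [CompactSpace X]
    [ChartedSpace (Cm n) X] [IsManifold 𝓘(ℂ, Cm n) ω X] : B4 n X := by
  intro w w' hw hw' lam M hlam hM x0
  haveI : Nonempty X := ⟨x0⟩
  have hM' : BR.DiscBound w M := BR.discBound_of_zero hM
  obtain ⟨f, hf, hmax⟩ := BR.exists_max hw hw' hM' (mu := 0) (r := 1 / 2) hlam le_rfl
    (by norm_num) x0
  have hP : ∀ g : ℂ → X, BR.Phi w w' lam 0 (1 / 2) g =
      BR.spd w g 0 - lam * (TE w' 1 g).toReal := by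
    intro g
    unfold BR.Phi BR.TR
    rw [BR.HY_TE_eq]
    ring
  refine ⟨f, hf.2.1, ⟨hf.1, hf.2.2.ne, fun g hg hg0 hgf => ?_⟩, ?_⟩
  · have := hmax g ⟨hg, hg0.trans hf.2.1, lt_top_iff_ne_top.2 hgf⟩
    rwa [hP, hP] at this
  · have h0 : 0 ≤ BR.Phi w w' lam 0 (1 / 2) f := by
      have := hmax _ (BR.adm_const w' x0)
      rwa [BR.Phi_const] at this
    have h1 := BR.TR_le_of_nonneg hM' hf h0
    rw [zero_mul, add_zero] at h1
    exact h1

end Vale.Agent.P272.HY
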