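import Vale.Agent.P272.BR.Lip
import Vale.Agent.P272.S2D.Iface

/-! Block B4M: existence of the maximiser of `|f'(0)|²_w + μ T^{(r)}_w(f) - lam T_g(f)`. -/

open scoped Manifold ContDiff ComplexOrder Topology ENNReal
open Complex Set Filter Metric MeasureTheory

set_option linter.all false

noncomputable section

namespace Vale.Agent.P272.S2D

open Vale.Agent.P272.K Vale.Agent.P272.HY

section
variable {n : ℕ} {X : Type*} [TopologicalSpace X] [ChartedSpace (Cm n) X]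
  {w g : Chart n X → Cm n → Matrix (Fin n) (Fin n) ℂ}

lemma Phi_eq (mu r lam : ℝ) (f : ℂ → X) : Phi w g mu r lam f = BR.Phi w g lam mu r f := rfl

lemma adm_iff {x : X} {f : ℂ → X} : BR.Adm n g x f ↔ HolD n f ∧ f 0 = x ∧ TE g 1 f ≠ ⊤ := by
  unfold BR.Adm
  rw [lt_top_iff_ne_top]
  rfl

end

/-- **B4M** -/
theorem b4m (n : ℕ) (X : Type) [TopologicalSpace X] [T2Space X] [CompactSpace X]
    [ChartedSpace (Cm n) X] [IsManifold 𝓘(ℂ, Cm n) ω X] : B4M n X := by
  intro w g hw hg mu r lam M hmu hr0 hr1 hlam hM x0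
  haveI : Nonempty X := ⟨x0⟩
  have hM' : BR.DiscBound w M := BR.discBound_of_zero hM
  obtain ⟨f, hf, hmax⟩ := BR.exists_max hw hg hM' (mu := mu) (r := r) hlam hmu hr1 x0
  exact ⟨f, hf.2.1, ⟨hf.1, hf.2.2.ne, fun h hh hh0 hhf =>
    hmax h ⟨hh, hh0.trans hf.2.1, lt_top_iff_ne_top.2 hhf⟩⟩⟩

end Vale.Agent.P272.S2D
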