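import Vale.Agent.P272.BR.Normal

/-! Brody's theorem: discs in a compact manifold without entire curves have bounded speed. -/

open scoped Manifold ContDiff ComplexOrder Topology
open Complex Set Filter Metric

set_option linter.all false

noncomputable section

namespace Vale.Agent.P272.BR

open Vale.Agent.P272.K

variable {n : ℕ} {X : Type*} [TopologicalSpace X] [ChartedSpace (Cm n) X]
  [IsManifold 𝓘(ℂ, Cm n) ω X] {h : Chart n X → Cm n → Matrix (Fin n) (Fin n) ℂ}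

/-- Zalcman's rescaling: a disc with `spd h f z₀ (1 - |z₀|)² > 4 K²` can be rescaled to a disc of
radius `K`, speed `1` at the centre and speed at most `2` everywhere. -/
lemma rescale (hh : IsHermitian h) {f : ℂ → X} (hf : HolOn n f (ball 0 1)) {z₀ : ℂ}
    (hz₀ : z₀ ∈ ball (0 : ℂ) 1) {K : ℝ} (hK : 0 < K)
    (hbig : 16 * K ^ 2 < spd h f z₀ * (1 - ‖z₀‖) ^ 2) :
    ∃ g : ℂ → X, HolOn n g (ball 0 K) ∧ (∀ ζ ∈ ball (0 : ℂ) K, spd h g ζ ≤ 4) ∧
      spd h g 0 = 1 := by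
  have hz₀' : ‖z₀‖ < 1 := by simpa using hz₀
  set r : ℝ := (1 + ‖z₀‖) / 2 with hr
  have hr1 : r < 1 := by rw [hr]; linarith
  have hr0 : ‖z₀‖ < r := by rw [hr]; linarith
  have hsub : closedBall (0 : ℂ) r ⊆ ball 0 1 := closedBall_subset_ball hr1
  have hcont : ContinuousOn (fun z => spd h f z * (r - ‖z‖) ^ 2) (closedBall (0 : ℂ) r) :=
    ((hf.continuousOn_spd isOpen_ball hh).mono hsub).mul
      ((continuous_const.sub continuous_norm).pow 2).continuousOn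
  obtain ⟨a, ha, hmax⟩ := (isCompact_closedBall (0 : ℂ) r).exists_isMaxOn
    ⟨z₀, by simpa using hr0.le⟩ hcont
  have ha' : ‖a‖ ≤ r := by simpa using ha
  have hmax' : ∀ z : ℂ, ‖z‖ ≤ r → spd h f z * (r - ‖z‖) ^ 2 ≤ spd h f a * (r - ‖a‖) ^ 2 :=
    fun z hz => isMaxOn_iff.1 hmax z (by simpa using hz)
  have h1 : 4 * K ^ 2 < spd h f a * (r - ‖a‖) ^ 2 := by
    have h2 := hmax' z₀ hr0.le
    have h3 : (r - ‖z₀‖) ^ 2 = (1 - ‖z₀‖) ^ 2 / 4 := by rw [hr]; ring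
    rw [h3] at h2
    linarith
  have hSnn := spd_nonneg hh f a
  have hd : 0 < r - ‖a‖ := by
    rcases (sub_nonneg.2 ha').lt_or_eq with h2 | h2
    · exact h2
    · rw [← h2] at h1
      nlinarith [sq_nonneg K]
  have hS : 0 < spd h f a := by
    rcases hSnn.lt_or_eq with h2 | h2
    · exact h2
    · rw [← h2] at h1
      nlinarith [sq_nonneg K]
  set S := spd h f a with hSdef
  set d := r - ‖a‖ with hddef
  set l : ℝ := 1 / √S with hl
  have hsq : 0 < √S := Real.sqrt_pos.2 hS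
  have hl0 : 0 < l := by positivity
  have hl2 : l ^ 2 * S = 1 := by
    rw [hl, div_pow, one_pow, Real.sq_sqrt hS.le]
    field_simp
  -- `l K < d / 2`
  have hlK : 2 * (l * K) < d := by
    have h2 : (2 * (l * K)) ^ 2 < d ^ 2 := by
      have h3 : (2 * (l * K)) ^ 2 = l ^ 2 * (4 * K ^ 2) := by ring
      rw [h3]
      calc l ^ 2 * (4 * K ^ 2) < l ^ 2 * (S * d ^ 2) := by gcongr
        _ = d ^ 2 := by rw [← mul_assoc, hl2, one_mul]
    exact lt_of_pow_lt_pow_left₀ 2 hd.le h2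
  have hnorm : ∀ ζ ∈ ball (0 : ℂ) K, ‖a + (l : ℂ) * ζ‖ ≤ ‖a‖ + l * ‖ζ‖ := by
    intro ζ _
    refine (norm_add_le _ _).trans ?_
    rw [norm_mul, Complex.norm_real, Real.norm_of_nonneg hl0.le]
  have hlt : ∀ ζ ∈ ball (0 : ℂ) K, l * ‖ζ‖ ≤ d / 2 := by
    intro ζ hζ
    have h2 : ‖ζ‖ < K := by simpa using hζ
    have h3 : l * ‖ζ‖ ≤ l * K := by gcongr
    linarith
  have hin : ∀ ζ ∈ ball (0 : ℂ) K, ‖a + (l : ℂ) * ζ‖ < r := by
    intro ζ hζ
    have h2 := hnorm ζ hζ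
    have h3 := hlt ζ hζ
    have h4 : ‖a‖ = r - d := by rw [hddef]; ring
    linarith
  have hdiff : ∀ ζ : ℂ, HasDerivAt (fun ζ : ℂ => a + (l : ℂ) * ζ) (l : ℂ) ζ := by
    intro ζ
    simpa using ((hasDerivAt_id ζ).const_mul (l : ℂ)).const_add a
  have hmem : ∀ ζ ∈ ball (0 : ℂ) K, a + (l : ℂ) * ζ ∈ ball (0 : ℂ) 1 := by
    intro ζ hζ
    have := hin ζ hζ
    rw [mem_ball_zero_iff]
    linarith
  have hspd : ∀ ζ ∈ ball (0 : ℂ) K, spd h (fun ζ => f (a + (l : ℂ) * ζ)) ζ =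
      l ^ 2 * spd h f (a + (l : ℂ) * ζ) := by
    intro ζ hζ
    rw [spd_comp (φ := fun ζ : ℂ => a + (l : ℂ) * ζ) (hf _ (hmem ζ hζ))
      (hdiff ζ).differentiableAt, (hdiff ζ).deriv, Complex.norm_real,
      Real.norm_of_nonneg hl0.le]
  refine ⟨fun ζ => f (a + (l : ℂ) * ζ), ?_, ?_, ?_⟩
  · exact HolOn.comp hf fun ζ hζ => ⟨(hdiff ζ).differentiableAt, hmem ζ hζ⟩
  · intro ζ hζ
    rw [hspd ζ hζ]
    set b := a + (l : ℂ) * ζ with hb
    have h2 := hmax' b (hin ζ hζ).le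
    have h3 : d / 2 ≤ r - ‖b‖ := by
      have h4 := hnorm ζ hζ
      have h5 := hlt ζ hζ
      have h6 : ‖a‖ = r - d := by rw [hddef]; ring
      linarith
    have hb0 := spd_nonneg hh f b
    have h4 : spd h f b * (d / 2) ^ 2 ≤ S * d ^ 2 := by
      refine le_trans ?_ h2
      gcongr
    have h5 : spd h f b ≤ 4 * S := by
      have h6 : 0 < d ^ 2 := by positivity
      have h7 : spd h f b * d ^ 2 ≤ 4 * S * d ^ 2 := by nlinarith
      exact le_of_mul_le_mul_right h7 h6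
    calc l ^ 2 * spd h f b ≤ l ^ 2 * (4 * S) := by gcongr
      _ = 4 := by rw [mul_left_comm, hl2, mul_one]
  · rw [hspd 0 (mem_ball_self hK), mul_zero, add_zero]
    exact hl2

/-- **Brody's theorem** -/
theorem brody_bound [T2Space X] [CompactSpace X] (hX : BrodyHyperbolic n X)
    (hh : IsHermitian h) : ∃ M : ℝ, 0 < M ∧ ∀ f : ℂ → X, HolOn n f (ball 0 1) →
      ∀ z ∈ ball (0 : ℂ) 1, spd h f z * (1 - ‖z‖) ^ 2 ≤ M := by
  by_contra hcon
  push Not at hcon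
  have key : ∀ k : ℕ, ∃ g : ℂ → X, HolOn n g (ball 0 ((k : ℝ) + 1)) ∧
      (∀ ζ ∈ ball (0 : ℂ) ((k : ℝ) + 1), spd h g ζ ≤ 4) ∧ spd h g 0 = 1 := by
    intro k
    obtain ⟨f, hf, z, hz, hbig⟩ := hcon (16 * ((k : ℝ) + 1) ^ 2) (by positivity)
    exact rescale hh hf hz (by positivity) hbig
  choose g hg1 hg2 hg3 using key
  obtain ⟨φ, hφ, G, hG, hconv⟩ := normal hh isOpen_univ g (fun z _ => by
    refine ⟨1, one_pos, 4, ?_⟩
    filter_upwards [eventually_ge_atTop ⌈‖z‖ + 1⌉₊] with k hk w hw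
    have h1 : ‖z‖ + 1 ≤ k := (Nat.le_ceil _).trans (by exact_mod_cast hk)
    have h2 : w ∈ ball (0 : ℂ) ((k : ℝ) + 1) := by
      rw [mem_ball_zero_iff]
      have h3 : ‖w - z‖ < 1 := by simpa [dist_eq_norm] using hw
      have h4 : ‖w‖ ≤ ‖w - z‖ + ‖z‖ := by
        calc ‖w‖ = ‖(w - z) + z‖ := by rw [sub_add_cancel]
          _ ≤ _ := norm_add_le _ _
      linarith
    exact ⟨hg1 k w h2, hg2 k w h2⟩)
  have hconst := hX G (holOn_univ_iff.1 hG)
  have h0 : spd h G 0 = 0 := by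
    have h1 : vel G (chartAt (Cm n) (G 0)) 0 = 0 := by
      have h2 : (fun ζ => chartAt (Cm n) (G 0) (G ζ)) = fun _ => chartAt (Cm n) (G 0) (G 0) := by
        funext ζ
        rw [hconst ζ 0]
      unfold vel
      rw [h2, deriv_const]
    unfold spd
    rw [h1]
    simp [quad]
  have h1 : Tendsto (fun k => spd h (g (φ k)) 0) atTop (𝓝 (spd h G 0)) :=
    hconv.spd hh hG (mem_univ 0)
  have h2 : Tendsto (fun k => spd h (g (φ k)) 0) atTop (𝓝 1) := by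
    simp only [hg3]
    exact tendsto_const_nhds
  have h3 := tendsto_nhds_unique h1 h2
  rw [h0] at h3
  exact zero_ne_one h3

/-- a form with `1 - |z|²` -/
theorem brody_bound' [T2Space X] [CompactSpace X] (hX : BrodyHyperbolic n X)
    (hh : IsHermitian h) : ∃ M : ℝ, 0 < M ∧ ∀ f : ℂ → X, HolOn n f (ball 0 1) →
      (spd h f 0 ≤ M ∧ ∀ z ∈ ball (0 : ℂ) 1, spd h f z ≤ M / (1 - ‖z‖) ^ 2) := by
  obtain ⟨M, hM, hb⟩ := brody_bound hX hh
  refine ⟨M, hM, fun f hf => ⟨?_, fun z hz => ?_⟩⟩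
  · have := hb f hf 0 (mem_ball_self one_pos)
    simpa using this
  · have h1 : 0 < 1 - ‖z‖ := by
      have : ‖z‖ < 1 := by simpa using hz
      linarith
    rw [le_div_iff₀ (by positivity)]
    exact hb f hf z hz

/-- **Compactness of the space of discs.** -/
theorem hol_compact [T2Space X] [CompactSpace X] (hX : BrodyHyperbolic n X)
    (hh : IsHermitian h) (F : ℕ → ℂ → X) (hF : ∀ k, HolOn n (F k) (ball 0 1)) :
    ∃ φ : ℕ → ℕ, StrictMono φ ∧ ∃ g : ℂ → X, HolOn n g (ball 0 1) ∧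
      ConvOn n (fun k => F (φ k)) g (ball 0 1) := by
  obtain ⟨M, hM, hb⟩ := brody_bound' hX hh
  refine normal hh isOpen_ball F fun z hz => ?_
  have hz' : ‖z‖ < 1 := by simpa using hz
  refine ⟨(1 - ‖z‖) / 2, by linarith, M / ((1 - ‖z‖) / 2) ^ 2,
    Eventually.of_forall fun k w hw => ?_⟩
  have h1 : ‖w‖ ≤ (1 + ‖z‖) / 2 := by
    have h3 : ‖w - z‖ < (1 - ‖z‖) / 2 := by simpa [dist_eq_norm] using hw
    have h4 : ‖w‖ ≤ ‖w - z‖ + ‖z‖ := by
      calc ‖w‖ = ‖(w - z) + z‖ := by rw [sub_add_cancel]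
        _ ≤ _ := norm_add_le _ _
    linarith
  have hw1 : w ∈ ball (0 : ℂ) 1 := by
    rw [mem_ball_zero_iff]; linarith
  refine ⟨hF k w hw1, ((hb (F k) (hF k)).2 w hw1).trans ?_⟩
  have h5 : (1 - ‖z‖) / 2 ≤ 1 - ‖w‖ := by linarith
  have h6 : 0 < (1 - ‖z‖) / 2 := by linarith
  gcongr

end Vale.Agent.P272.BR
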