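import Vale.Agent.P272.K.Inv.Compact
import Vale.Agent.P272.K.T4.StmtNF
import Mathlib.Geometry.Manifold.MFDeriv.Atlas
import Mathlib.Geometry.Manifold.MFDeriv.FDeriv
import Mathlib.Topology.UniformSpace.UniformConvergence

/-! Holomorphic maps from open sets of the plane to a complex manifold, their speed. -/

open scoped Manifold ContDiff ComplexOrder Topology
open Complex Set Filter Metric

set_option linter.all false

noncomputable section

namespace Vale.Agent.P272.BR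

open Vale.Agent.P272.K

section defs
variable (n : ℕ) {X : Type*} [TopologicalSpace X] [ChartedSpace (Cm n) X]

/-- `f : ℂ → X` is continuous and complex differentiable at `z`. -/
def HolAt (f : ℂ → X) (z : ℂ) : Prop :=
  ContinuousAt f z ∧ ∀ e : Chart n X, At e (f z) → DifferentiableAt ℂ (fun ζ => e (f ζ)) z

/-- `f : ℂ → X` is holomorphic on the (open) set `U`. -/
def HolOn (f : ℂ → X) (U : Set ℂ) : Prop := ∀ z ∈ U, HolAt n f z

/-- Locally uniform convergence `f k → g` on `U`, in the charts of `X`. -/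
def ConvOn (f : ℕ → ℂ → X) (g : ℂ → X) (U : Set ℂ) : Prop :=
  ∀ z ∈ U, ∀ e : Chart n X, At e (g z) → ∃ ρ > 0, ball z ρ ⊆ U ∧ (∀ w ∈ ball z ρ, At e (g w)) ∧
    (∀ᶠ k in atTop, ∀ w ∈ ball z ρ, At e (f k w) ∧ HolAt n (f k) w) ∧
    TendstoUniformlyOn (fun k w => e (f k w)) (fun w => e (g w)) atTop (ball z ρ)

variable {n}

/-- The square `|f'(z)|_h²` of the speed. -/
def spd (h : Chart n X → Cm n → Matrix (Fin n) (Fin n) ℂ) (f : ℂ → X) (z : ℂ) : ℝ :=
  (quad (h (chartAt (Cm n) (f z)) (chartAt (Cm n) (f z) (f z)))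
    (vel f (chartAt (Cm n) (f z)) z)).re

end defs

section basic
variable {n : ℕ} {X : Type*} [TopologicalSpace X] [ChartedSpace (Cm n) X]
  {h : Chart n X → Cm n → Matrix (Fin n) (Fin n) ℂ} {f : ℂ → X} {e e' : Chart n X} {z : ℂ}
  {U V : Set ℂ}

lemma at_chartAt (x : X) : At (chartAt (Cm n) x : Chart n X) x :=
  ⟨chart_mem_atlas (Cm n) x, mem_chart_source (Cm n) x⟩

lemma HolOn.mono (hf : HolOn n f U) (hV : V ⊆ U) : HolOn n f V := fun z hz => hf z (hV hz)

lemma HolOn.continuousOn (hf : HolOn n f U) : ContinuousOn f U := fun z hz =>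
  (hf z hz).1.continuousWithinAt

lemma HolAt.eventually_at (hf : ContinuousAt f z) (he : At e (f z)) : ∀ᶠ ζ in 𝓝 z, At e (f ζ) := by
  filter_upwards [hf.eventually (e.open_source.mem_nhds he.2)] with ζ hζ
  exact ⟨he.1, hζ⟩

lemma HolAt.congr {g : ℂ → X} (hf : HolAt n f z) (hg : g =ᶠ[𝓝 z] f) : HolAt n g z := by
  have h0 : g z = f z := hg.self_of_nhds
  refine ⟨hf.1.congr hg.symm, fun e he => ?_⟩
  rw [h0] at he
  exact (hf.2 e he).congr_of_eventuallyEq (by filter_upwards [hg] with ζ hζ; rw [hζ])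

lemma vel_congr {g : ℂ → X} (hg : g =ᶠ[𝓝 z] f) : vel g e z = vel f e z :=
  Filter.EventuallyEq.deriv_eq (by filter_upwards [hg] with ζ hζ; rw [hζ])

lemma spd_congr {g : ℂ → X} (hg : g =ᶠ[𝓝 z] f) : spd h g z = spd h f z := by
  unfold spd
  rw [vel_congr hg, hg.self_of_nhds]

lemma HolAt.hasDerivAt (hf : HolAt n f z) (he : At e (f z)) :
    HasDerivAt (fun ζ => e (f ζ)) (vel f e z) z := (hf.2 e he).hasDerivAt

variable [IsManifold 𝓘(ℂ, Cm n) ω X]

/-- holomorphy can be checked in one chart -/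
lemma holAt_of_chart (hc : ContinuousAt f z) (he : At e (f z))
    (hd : DifferentiableAt ℂ (fun ζ => e (f ζ)) z) : HolAt n f z := by
  refine ⟨hc, fun e' he' => ?_⟩
  have h1 : DifferentiableAt ℂ (fun w => e' (e.symm w)) (e (f z)) :=
    transition_differentiableAt he he'
  have h2 : DifferentiableAt ℂ (fun ζ => (fun w => e' (e.symm w)) (e (f ζ))) z :=
    DifferentiableAt.comp (g := fun w => e' (e.symm w)) z h1 hd
  refine h2.congr_of_eventuallyEq ?_
  filter_upwards [HolAt.eventually_at hc he] with ζ hζ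
  simp only [hζ.left_inv]

/-- a map `G` to `ℂⁿ` composed with an inverse chart -/
lemma holAt_symm {G : ℂ → Cm n} (he : e ∈ atlas (Cm n) X) (hz : G z ∈ e.target)
    (hG : DifferentiableAt ℂ G z) : HolAt n (fun ζ => e.symm (G ζ)) z := by
  have hat : At e (e.symm (G z)) := At.of_target he hz
  have hc : ContinuousAt (fun ζ => e.symm (G ζ)) z :=
    (e.continuousAt_symm hz).comp hG.continuousAt
  refine holAt_of_chart hc hat ?_
  refine hG.congr_of_eventuallyEq ?_
  filter_upwards [hG.continuousAt.eventually (e.open_target.mem_nhds hz)] with ζ hζ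
  exact e.right_inv hζ

lemma isManifold_one (n : ℕ) (X : Type*) [TopologicalSpace X] [ChartedSpace (Cm n) X]
    [IsManifold 𝓘(ℂ, Cm n) ω X] : IsManifold 𝓘(ℂ, Cm n) 1 X :=
  IsManifold.of_le (n := ω) le_top

lemma holAt_iff_mdiff : HolAt n f z ↔ MDifferentiableAt 𝓘(ℂ, ℂ) 𝓘(ℂ, Cm n) f z := by
  haveI := isManifold_one n X
  constructor
  · intro hf
    have he := at_chartAt (n := n) (f z)
    have h1 : MDifferentiableAt 𝓘(ℂ, Cm n) 𝓘(ℂ, Cm n) (chartAt (Cm n) (f z)).symm
        (chartAt (Cm n) (f z) (f z)) := mdifferentiableAt_atlas_symm he.1 he.mem_target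
    have h2 : MDifferentiableAt 𝓘(ℂ, ℂ) 𝓘(ℂ, Cm n) (fun ζ => chartAt (Cm n) (f z) (f ζ)) z :=
      (hf.2 _ he).mdifferentiableAt
    have h3 : MDifferentiableAt 𝓘(ℂ, ℂ) 𝓘(ℂ, Cm n)
      ((chartAt (Cm n) (f z)).symm ∘ fun ζ => chartAt (Cm n) (f z) (f ζ)) z := h1.comp z h2
    refine h3.congr_of_eventuallyEq ?_
    filter_upwards [HolAt.eventually_at hf.1 he] with ζ hζ
    simp only [Function.comp_apply, hζ.left_inv]
  · intro hf
    refine ⟨hf.continuousAt, fun e he => ?_⟩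
    have h1 : MDifferentiableAt 𝓘(ℂ, Cm n) 𝓘(ℂ, Cm n) e (f z) :=
      mdifferentiableAt_atlas he.1 he.2
    have h2 : MDifferentiableAt 𝓘(ℂ, ℂ) 𝓘(ℂ, Cm n) (e ∘ f) z := h1.comp z hf
    exact h2.differentiableAt

lemma holOn_univ_iff : HolOn n f univ ↔ MDifferentiable 𝓘(ℂ, ℂ) 𝓘(ℂ, Cm n) f :=
  ⟨fun hf z => holAt_iff_mdiff.1 (hf z trivial), fun hf z _ => holAt_iff_mdiff.2 (hf z)⟩

lemma holOn_iff_mdiffOn (hU : IsOpen U) :
    HolOn n f U ↔ MDifferentiableOn 𝓘(ℂ, ℂ) 𝓘(ℂ, Cm n) f U :=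
  ⟨fun hf z hz => (holAt_iff_mdiff.1 (hf z hz)).mdifferentiableWithinAt,
    fun hf z hz => holAt_iff_mdiff.2 ((hf z hz).mdifferentiableAt (hU.mem_nhds hz))⟩

/-- the velocities in two charts -/
lemma HolAt.vel_change (hf : HolAt n f z) (he : At e (f z)) (he' : At e' (f z)) :
    vel f e' z = (jacM e e' (f z)).mulVec (vel f e z) := by
  have hτ := transition_differentiableAt he he'
  have h1 : HasDerivAt (fun ζ => (fun w => e' (e.symm w)) (e (f ζ)))
      (fderiv ℂ (fun w => e' (e.symm w)) (e (f z)) (vel f e z)) z :=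
    HasFDerivAt.comp_hasDerivAt (l := fun w => e' (e.symm w)) z hτ.hasFDerivAt
      (hf.hasDerivAt he)
  have h2 : (fun ζ => e' (f ζ)) =ᶠ[𝓝 z] fun ζ => (fun w => e' (e.symm w)) (e (f ζ)) := by
    filter_upwards [HolAt.eventually_at hf.1 he] with ζ hζ
    simp only [hζ.left_inv]
  have h3 := (h1.congr_of_eventuallyEq h2).deriv
  show deriv (fun ζ => e' (f ζ)) z = _
  rw [h3]
  funext p
  rw [jmat_mulVec hτ]
  rfl

lemma quad_change (M J : Matrix (Fin n) (Fin n) ℂ) (v : Cm n) :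
    quad (J.transpose * M * J.map (starRingEnd ℂ)) v = quad M (J.mulVec v) := by
  rw [quad_eq, quad_eq]
  have h1 : (fun i => cj (J.mulVec v i)) = (J.map (starRingEnd ℂ)).mulVec fun i => cj (v i) := by
    funext i
    simp only [Matrix.mulVec, dotProduct, cj, map_sum, map_mul, Matrix.map_apply]
  have h2 : (J.map (starRingEnd ℂ)).conjTranspose = J.transpose := by
    ext i j; simp
  rw [h1, ← Matrix.mulVec_mulVec, ← Matrix.mulVec_mulVec, Matrix.star_mulVec, h2]
  rw [Matrix.dotProduct_mulVec, Matrix.dotProduct_mulVec, Matrix.dotProduct_mulVec]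

lemma spd_eq (hh : IsHermitian h) (hf : HolAt n f z) (he : At e (f z)) :
    spd h f z = (quad (h e (e (f z))) (vel f e z)).re := by
  have he' := at_chartAt (n := n) (f z)
  unfold spd
  rw [hh.change e (chartAt (Cm n) (f z)) (f z) he he', quad_change, hf.vel_change he he']

lemma spd_nonneg (hh : IsHermitian h) (f : ℂ → X) (z : ℂ) : 0 ≤ spd h f z :=
  quad_nonneg (hh.posDef _ _ (at_chartAt (n := n) (f z))).posSemidef _

end basic

end Vale.Agent.P272.BR
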