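import Vale.Agent.P272.BR.MaxC

/-! Smoothness of the speed and the change of `T^{(r)}` under a small change of the disc. -/

open scoped Manifold ContDiff ComplexOrder Topology ENNReal
open Complex Set Filter Metric MeasureTheory

set_option linter.all false

noncomputable section

namespace Vale.Agent.P272.BR

open Vale.Agent.P272.K Vale.Agent.P272.GJ

section
variable {n : ℕ} {X : Type*} [TopologicalSpace X] [ChartedSpace (Cm n) X]
  {a : Chart n X → Cm n → Matrix (Fin n) (Fin n) ℂ} {f : ℂ → X} {U : Set ℂ}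
  [IsManifold 𝓘(ℂ, Cm n) ω X]

/-- the speed of a holomorphic curve is smooth -/
theorem HolOn.spd_contDiffAt (hU : IsOpen U) (ha : IsHermitian a) (hf : HolOn n f U) {z : ℂ}
    (hz : z ∈ U) : ContDiffAt ℝ ∞ (spd a f) z := by
  have he := at_chartAt (n := n) (f z)
  set e := chartAt (Cm n) (f z) with hedef
  obtain ⟨ρ, hρ, h1, h2, h3⟩ := hf.exists_ball hU hz he
  have hzb : z ∈ ball z ρ := mem_ball_self hρ
  have hF : ContDiffAt ℝ ∞ (fun ζ => e (f ζ)) z :=
    ((h3.analyticAt (isOpen_ball.mem_nhds hzb)).contDiffAt (n := ∞)).restrict_scalars ℝ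
  have hV : ContDiffAt ℝ ∞ (vel f e) z :=
    (((h3.deriv isOpen_ball).analyticAt (isOpen_ball.mem_nhds hzb)).contDiffAt
      (n := ∞)).restrict_scalars ℝ
  have h4 : ContDiffAt ℝ ∞ (fun ζ => (quad (a e (e (f ζ))) (vel f e ζ)).re) z := by
    have h5 : ContDiffAt ℝ ∞ (fun ζ => quad (a e (e (f ζ))) (vel f e ζ)) z := by
      unfold quad
      refine ContDiffAt.sum fun i _ => ContDiffAt.sum fun j _ => ?_
      refine ContDiffAt.mul ?_ (ContDiffAt.mul ?_ ?_)
      · exact (ha.smooth e (f z) he i j).comp z hF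
      · exact (contDiffAt_pi.1 hV i)
      · exact Complex.conjCLE.contDiff.contDiffAt.comp z (contDiffAt_pi.1 hV j)
    exact Complex.reCLM.contDiff.contDiffAt.comp z h5
  refine h4.congr_of_eventuallyEq ?_
  filter_upwards [hf.eventually hU hz he] with ζ hζ
  exact spd_eq ha hζ.2.2 hζ.2.1

/-- the speed is Lipschitz on smaller discs -/
theorem HolOn.spd_lipschitz (ha : IsHermitian a) (hf : HolOn n f (ball (0:ℂ) 1)) {r : ℝ}
    (hr1 : r < 1) : ∃ L : ℝ, 0 ≤ L ∧ ∀ y ∈ closedBall (0:ℂ) r, ∀ y' ∈ closedBall (0:ℂ) r,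
      |spd a f y - spd a f y'| ≤ L * ‖y - y'‖ := by
  have hsub : closedBall (0:ℂ) r ⊆ ball (0:ℂ) 1 := closedBall_subset_ball hr1
  have hd : ∀ z ∈ closedBall (0:ℂ) r, DifferentiableAt ℝ (spd a f) z := fun z hz =>
    (hf.spd_contDiffAt isOpen_ball ha (hsub hz)).differentiableAt (by simp)
  have hc : ContinuousOn (fderiv ℝ (spd a f)) (closedBall (0:ℂ) r) := fun z hz =>
    (((hf.spd_contDiffAt isOpen_ball ha (hsub hz)).fderiv_right (m := 0)
      (by simp)).continuousAt).continuousWithinAt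
  obtain ⟨L, hL⟩ := (isCompact_closedBall (0:ℂ) r).exists_bound_of_continuousOn hc
  refine ⟨max L 0, le_max_right _ _, fun y hy y' hy' => ?_⟩
  have := (convex_closedBall (0:ℂ) r).norm_image_sub_le_of_norm_fderiv_le (𝕜 := ℝ)
    (f := spd a f) (C := max L 0) (x := y') (y := y) hd
    (fun z hz => (hL z hz).trans (le_max_left _ _)) hy' hy
  simpa [Real.norm_eq_abs] using this

/-- **the change of `T^{(r)}_a`** under composition with a map close to the identity: at most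
`C δ` if `|φ - id| ≤ δ`, `|φ' - 1| ≤ δ` on the disc of radius `r`, `δ ≤ (1 - r) / 2` -/
theorem TR_comp_sub_le (ha : IsHermitian a) (hf : HolOn n f (ball (0:ℂ) 1)) {r : ℝ}
    (hr0 : 0 < r) (hr1 : r < 1) : ∃ C : ℝ, 0 ≤ C ∧ ∀ (φ : ℂ → ℂ) (δ : ℝ), δ ≤ (1 - r) / 2 →
      DifferentiableOn ℂ φ (ball (0:ℂ) 1) → MapsTo φ (ball (0:ℂ) 1) (ball (0:ℂ) 1) →
      (∀ z ∈ ball (0:ℂ) r, ‖φ z - z‖ ≤ δ ∧ ‖deriv φ z - 1‖ ≤ δ) →
      |TR a f r - TR a (fun z => f (φ z)) r| ≤ C * δ := by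
  set r' : ℝ := (1 + r) / 2 with hr'
  have hr'1 : r' < 1 := by rw [hr']; linarith
  have hrr' : r < r' := by rw [hr']; linarith
  obtain ⟨L, hL0, hL⟩ := hf.spd_lipschitz ha hr'1
  have hcont : ContinuousOn (spd a f) (ball (0:ℂ) 1) := hf.continuousOn_spd isOpen_ball ha
  obtain ⟨B, hB⟩ := (isCompact_closedBall (0:ℂ) r').exists_bound_of_continuousOn
    (hcont.mono (closedBall_subset_ball hr'1))
  have hB0 : 0 ≤ B := (norm_nonneg _).trans (hB 0 (by simp; linarith))
  set K : ℝ := 4 * B + L with hK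
  have hK0 : 0 ≤ K := by positivity
  refine ⟨K * r ^ 2, by positivity, fun φ δ hδ hd hm hφ => ?_⟩
  have hδ0 : 0 ≤ δ := (norm_nonneg _).trans (hφ 0 (by simp [hr0])).1
  have hδ1 : δ ≤ 1 := by linarith
  have hsub : ball (0:ℂ) r ⊆ ball (0:ℂ) 1 := ball_subset_ball hr1.le
  have hcomp : HolOn n (fun z => f (φ z)) (ball (0:ℂ) 1) :=
    hf.comp fun z hz => ⟨hd.differentiableAt (isOpen_ball.mem_nhds hz), hm hz⟩
  have hpt : ∀ z ∈ ball (0:ℂ) r, |spd a f z - spd a (fun z => f (φ z)) z| ≤ K * δ := by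
    intro z hz
    have hz1 := hsub hz
    have hzr : ‖z‖ < r := by simpa using hz
    obtain ⟨e1, e2⟩ := hφ z hz
    have h1 : spd a (fun z => f (φ z)) z = ‖deriv φ z‖ ^ 2 * spd a f (φ z) :=
      spd_comp (hf _ (hm hz1)) (hd.differentiableAt (isOpen_ball.mem_nhds hz1))
    have hφz : φ z ∈ closedBall (0:ℂ) r' := by
      rw [mem_closedBall_zero_iff]
      have : ‖φ z‖ ≤ ‖φ z - z‖ + ‖z‖ := by simpa using norm_add_le (φ z - z) z
      rw [hr']; linarith
    have hzz : z ∈ closedBall (0:ℂ) r' := by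
      rw [mem_closedBall_zero_iff]; linarith
    have h2 : |spd a f z - spd a f (φ z)| ≤ L * δ := by
      refine (hL z hzz (φ z) hφz).trans (mul_le_mul_of_nonneg_left ?_ hL0)
      rw [norm_sub_rev]; exact e1
    have h3 : |1 - ‖deriv φ z‖ ^ 2| ≤ 3 * δ := by
      have h4 : |1 - ‖deriv φ z‖| ≤ δ := by
        have := abs_norm_sub_norm_le (1:ℂ) (deriv φ z)
        rw [norm_one, norm_sub_rev] at this
        exact this.trans e2
      have h5 : ‖deriv φ z‖ ≤ 2 := by
        have := abs_le.1 h4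
        linarith [this.1]
      have h6 : 1 - ‖deriv φ z‖ ^ 2 = (1 - ‖deriv φ z‖) * (1 + ‖deriv φ z‖) := by ring
      rw [h6, abs_mul, abs_of_nonneg (by positivity : (0:ℝ) ≤ 1 + ‖deriv φ z‖)]
      calc |1 - ‖deriv φ z‖| * (1 + ‖deriv φ z‖) ≤ δ * 3 :=
            mul_le_mul h4 (by linarith) (by positivity) hδ0
        _ = 3 * δ := by ring
    have h7 : |spd a f (φ z)| ≤ B := by simpa [Real.norm_eq_abs] using hB (φ z) hφz
    rw [h1]
    have h8 : spd a f z - ‖deriv φ z‖ ^ 2 * spd a f (φ z) =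
        (spd a f z - spd a f (φ z)) + (1 - ‖deriv φ z‖ ^ 2) * spd a f (φ z) := by ring
    rw [h8]
    refine (abs_add_le _ _).trans ?_
    rw [abs_mul]
    have h9 : |1 - ‖deriv φ z‖ ^ 2| * |spd a f (φ z)| ≤ 3 * δ * B :=
      mul_le_mul h3 h7 (abs_nonneg _) (by positivity)
    rw [hK]
    nlinarith
  rw [TR_eq_integral ha hf hr1.le, TR_eq_integral ha hcomp hr1.le]
  have hi : ∀ F : ℂ → X, HolOn n F (ball (0:ℂ) 1) →
      IntegrableOn (fun z => Gr r z * spd a F z) (ball (0:ℂ) r) := by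
    intro F hF
    refine integrableOn_Gr_mul hr0 ?_
    exact (hF.continuousOn_spd isOpen_ball ha).mono (closedBall_subset_ball hr1)
  rw [← integral_sub (hi f hf) (hi _ hcomp)]
  have hG := integrableOn_Gr (r := r) hr0
  have h1 : ‖∫ z in ball (0:ℂ) r, (Gr r z * spd a f z - Gr r z * spd a (fun z => f (φ z)) z)‖ ≤
      ∫ z in ball (0:ℂ) r, Gr r z * (K * δ) := by
    refine norm_integral_le_of_norm_le (hG.mul_const _) ?_
    refine (ae_restrict_iff' measurableSet_ball).2 (Eventually.of_forall fun z hz => ?_)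
    rw [← mul_sub, norm_mul, Real.norm_eq_abs, Real.norm_eq_abs, abs_of_nonneg (Gr_nonneg hz)]
    exact mul_le_mul_of_nonneg_left (hpt z hz) (Gr_nonneg hz)
  rw [Real.norm_eq_abs] at h1
  refine h1.trans (le_of_eq ?_)
  rw [integral_mul_const, integral_Gr hr0]
  ring

end

end Vale.Agent.P272.BR
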