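import Vale.Agent.P272.GJ.Green
import Mathlib.MeasureTheory.Constructions.HaarToSphere
import Mathlib.MeasureTheory.Measure.Lebesgue.Complex
import Mathlib.MeasureTheory.Measure.Lebesgue.VolumeOfBalls
import Mathlib.Analysis.SpecialFunctions.Log.NegMulLog
import Mathlib.MeasureTheory.Integral.DominatedConvergence
import Mathlib.Analysis.Complex.Basic

/-! The Green function of the disc with pole at the centre and the integrals
`∫_{|z|<r} G_r s dA` (in `[0,∞]`). -/

open scoped Topology ENNReal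
open Complex Set Filter Metric MeasureTheory

set_option linter.all false

noncomputable section

namespace Vale.Agent.P272.BR

open Vale.Agent.P272.GJ

/-- `∫_{|z|<r} G_r s dA` in `[0,∞]` -/
def TL (s : ℂ → ℝ) (r : ℝ) : ℝ≥0∞ := ∫⁻ z in ball (0:ℂ) r, ENNReal.ofReal (Gr r z * s z)

variable {r r' : ℝ} {z : ℂ} {s : ℂ → ℝ}

lemma Gr_nonneg_of_le (hr : 0 < r) (hz : ‖z‖ ≤ r) : 0 ≤ Gr r z := by
  refine mul_nonneg (by positivity) ?_
  rcases eq_or_ne z 0 with rfl | hz0
  · simp
  · exact Real.log_nonneg ((one_le_div (norm_pos_iff.2 hz0)).2 hz)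

lemma integrableOn_Gr' (r : ℝ) : IntegrableOn (Gr r) (ball (0:ℂ) r) := by
  rcases le_or_gt r 0 with hr | hr
  · rw [ball_eq_empty.2 hr]; exact integrableOn_empty
  · exact integrableOn_Gr hr

lemma TL_congr {s' : ℂ → ℝ} (h : ∀ z ∈ ball (0:ℂ) r, s z = s' z) : TL s r = TL s' r := by
  unfold TL
  exact setLIntegral_congr_fun measurableSet_ball fun z hz => by simp only [h z hz]

lemma TL_mono (h : ∀ z ∈ ball (0:ℂ) r, s z ≤ (fun z => s z) z) : TL s r ≤ TL s r := le_rfl

lemma TL_le_of_le {s' : ℂ → ℝ} (h : ∀ z ∈ ball (0:ℂ) r, s z ≤ s' z) : TL s r ≤ TL s' r := by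
  unfold TL
  refine setLIntegral_mono' measurableSet_ball fun z hz => ENNReal.ofReal_le_ofReal ?_
  exact mul_le_mul_of_nonneg_left (h z hz) (Gr_nonneg hz)

lemma TL_mono_radius (hr : 0 < r) (h : r ≤ r') (hs : ∀ z ∈ ball (0:ℂ) r, 0 ≤ s z) :
    TL s r ≤ TL s r' := by
  unfold TL
  calc ∫⁻ z in ball (0:ℂ) r, ENNReal.ofReal (Gr r z * s z)
      ≤ ∫⁻ z in ball (0:ℂ) r, ENNReal.ofReal (Gr r' z * s z) := by
        refine setLIntegral_mono' measurableSet_ball fun z hz => ENNReal.ofReal_le_ofReal ?_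
        exact mul_le_mul_of_nonneg_right (Gr_mono hr h z) (hs z hz)
    _ ≤ _ := lintegral_mono_set (ball_subset_ball h)

lemma TL_lt_top {C : ℝ} (hC : ∀ z ∈ ball (0:ℂ) r, s z ≤ C) : TL s r < ⊤ := by
  have h1 : TL s r ≤ TL (fun _ => C) r := TL_le_of_le hC
  refine lt_of_le_of_lt h1 ?_
  unfold TL
  exact ((integrableOn_Gr' r).mul_const C).lintegral_lt_top

lemma aemeasurable_integrand (hs : AEMeasurable s (volume.restrict (ball (0:ℂ) r))) (r'' : ℝ) :
    AEMeasurable (fun z => ENNReal.ofReal (Gr r'' z * s z)) (volume.restrict (ball (0:ℂ) r)) :=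
  ((measurable_Gr r'').aemeasurable.mul hs).ennreal_ofReal

/-- the value in `ℝ` is the Bochner integral -/
lemma TL_toReal (hs : AEMeasurable s (volume.restrict (ball (0:ℂ) r)))
    (h0 : ∀ z ∈ ball (0:ℂ) r, 0 ≤ s z) :
    (TL s r).toReal = ∫ z in ball (0:ℂ) r, Gr r z * s z := by
  unfold TL
  rw [integral_eq_lintegral_of_nonneg_ae]
  · exact (ae_restrict_iff' measurableSet_ball).2 (Eventually.of_forall fun z hz =>
      mul_nonneg (Gr_nonneg hz) (h0 z hz))
  · exact ((measurable_Gr r).aemeasurable.mul hs).aestronglyMeasurable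

lemma TL_integrable (hs : AEMeasurable s (volume.restrict (ball (0:ℂ) r)))
    (h0 : ∀ z ∈ ball (0:ℂ) r, 0 ≤ s z) (hT : TL s r < ⊤) :
    IntegrableOn (fun z => Gr r z * s z) (ball (0:ℂ) r) := by
  refine ⟨((measurable_Gr r).aemeasurable.mul hs).aestronglyMeasurable, ?_⟩
  rw [hasFiniteIntegral_iff_ofReal]
  · exact hT
  · exact (ae_restrict_iff' measurableSet_ball).2 (Eventually.of_forall fun z hz =>
      mul_nonneg (Gr_nonneg hz) (h0 z hz))

/-- Fatou -/
lemma TL_fatou {sk : ℕ → ℂ → ℝ} (hsk : ∀ k, AEMeasurable (sk k) (volume.restrict (ball (0:ℂ) r)))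
    (hlim : ∀ z ∈ ball (0:ℂ) r, Tendsto (fun k => sk k z) atTop (𝓝 (s z))) :
    TL s r ≤ liminf (fun k => TL (sk k) r) atTop := by
  unfold TL
  refine le_trans (le_of_eq ?_) (lintegral_liminf_le' fun k => aemeasurable_integrand (hsk k) r)
  refine setLIntegral_congr_fun measurableSet_ball fun z hz => ?_
  exact (((ENNReal.continuous_ofReal.tendsto _).comp
    ((hlim z hz).const_mul (Gr r z))).liminf_eq).symm

/-- dominated convergence -/
lemma TL_tendsto {sk : ℕ → ℂ → ℝ} (hsk : ∀ k, AEMeasurable (sk k) (volume.restrict (ball (0:ℂ) r)))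
    (hlim : ∀ z ∈ ball (0:ℂ) r, Tendsto (fun k => sk k z) atTop (𝓝 (s z))) {C : ℝ}
    (hC : ∀ k, ∀ z ∈ ball (0:ℂ) r, sk k z ≤ C) :
    Tendsto (fun k => TL (sk k) r) atTop (𝓝 (TL s r)) := by
  unfold TL
  refine tendsto_lintegral_of_dominated_convergence' (fun z => ENNReal.ofReal (Gr r z * C))
    (fun k => aemeasurable_integrand (hsk k) r) (fun k => ?_) ?_ ?_
  · exact (ae_restrict_iff' measurableSet_ball).2 (Eventually.of_forall fun z hz =>
      ENNReal.ofReal_le_ofReal (mul_le_mul_of_nonneg_left (hC k z hz) (Gr_nonneg hz)))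
  · exact ((integrableOn_Gr' r).mul_const C).lintegral_lt_top.ne
  · exact (ae_restrict_iff' measurableSet_ball).2 (Eventually.of_forall fun z hz =>
      (ENNReal.continuous_ofReal.tendsto _).comp ((hlim z hz).const_mul (Gr r z)))

/-- monotone limit `r → 1` -/
lemma TL_tendsto_radius (hs : AEMeasurable s (volume.restrict (ball (0:ℂ) r'))) (hr' : 0 < r')
    (h0 : ∀ z ∈ ball (0:ℂ) r', 0 ≤ s z) {ρ : ℕ → ℝ} (hρm : Monotone ρ) (hρ0 : ∀ k, 0 < ρ k)
    (hρ1 : ∀ k, ρ k < r') (hρ : Tendsto ρ atTop (𝓝 r')) :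
    Tendsto (fun k => TL s (ρ k)) atTop (𝓝 (TL s r')) := by
  have key : ∀ ρ' : ℝ, ρ' ≤ r' → TL s ρ' =
      ∫⁻ z in ball (0:ℂ) r', (ball (0:ℂ) ρ').indicator (fun z => ENNReal.ofReal (Gr ρ' z * s z)) z := by
    intro ρ' h
    unfold TL
    rw [setLIntegral_indicator measurableSet_ball, inter_eq_left.2 (ball_subset_ball h)]
  have h1 : (fun k => TL s (ρ k)) = fun k => ∫⁻ z in ball (0:ℂ) r',
      (ball (0:ℂ) (ρ k)).indicator (fun z => ENNReal.ofReal (Gr (ρ k) z * s z)) z := by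
    funext k
    exact key (ρ k) (hρ1 k).le
  rw [h1]
  refine lintegral_tendsto_of_tendsto_of_monotone (fun k => ?_) ?_ ?_
  · exact (aemeasurable_integrand hs (ρ k)).indicator measurableSet_ball
  · refine (ae_restrict_iff' measurableSet_ball).2 (Eventually.of_forall fun z hz => ?_)
    intro k l hkl
    simp only [indicator]
    split_ifs with ha hb
    · exact ENNReal.ofReal_le_ofReal (mul_le_mul_of_nonneg_right
        (Gr_mono (hρ0 k) (hρm hkl) z) (h0 z hz))
    · exact absurd (ball_subset_ball (hρm hkl) ha) hb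
    · positivity
    · exact le_rfl
  · have hnz : ∀ᵐ z : ℂ ∂(volume.restrict (ball (0:ℂ) r')), z ≠ 0 := by
      refine ae_restrict_of_ae ?_
      exact (measure_eq_zero_iff_ae_notMem (s := {(0:ℂ)})).1 (by simp)
    filter_upwards [(ae_restrict_iff' measurableSet_ball).2 (Eventually.of_forall fun z hz => hz),
      hnz] with z hz hz0
    have h2 : ∀ᶠ k in atTop, z ∈ ball (0:ℂ) (ρ k) := by
      have h3 : ‖z‖ < r' := by simpa using hz
      filter_upwards [hρ.eventually (lt_mem_nhds h3)] with k hk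
      simpa using hk
    have h4 : Tendsto (fun k => ENNReal.ofReal (Gr (ρ k) z * s z)) atTop
        (𝓝 (ENNReal.ofReal (Gr r' z * s z))) := by
      refine (ENNReal.continuous_ofReal.tendsto _).comp (Tendsto.mul_const _ ?_)
      exact (continuousAt_Gr hr'.ne' z).tendsto.comp hρ
    refine h4.congr' ?_
    filter_upwards [h2] with k hk
    rw [indicator_of_mem hk]

end Vale.Agent.P272.BR
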