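import Vale.Agent.P272.BR.Normal
import Vale.Agent.P272.BR.Tfun

/-! Existence of extremal discs. -/

open scoped Manifold ContDiff ComplexOrder Topology ENNReal
open Complex Set Filter Metric MeasureTheory

set_option linter.all false

noncomputable section

namespace Vale.Agent.P272.BR

open Vale.Agent.P272.K Vale.Agent.P272.GJ

section
variable {n : ℕ} {X : Type*} [TopologicalSpace X] [ChartedSpace (Cm n) X]
  {h w w' : Chart n X → Cm n → Matrix (Fin n) (Fin n) ℂ} {f g : ℂ → X}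

/-- `T^{(r)}_h(f) = ∫_{|z|<r} G_r |f'|_h² dA` in `[0,∞]` -/
def TE (h : Chart n X → Cm n → Matrix (Fin n) (Fin n) ℂ) (f : ℂ → X) (r : ℝ) : ℝ≥0∞ :=
  TL (spd h f) r

/-- `T^{(r)}_h(f)` as a real number -/
def TR (h : Chart n X → Cm n → Matrix (Fin n) (Fin n) ℂ) (f : ℂ → X) (r : ℝ) : ℝ :=
  (TE h f r).toReal

/-- the functional `|f'(0)|_w² + μ T^{(r)}_w(f) - λ T_{w'}(f)` -/
def Phi (w w' : Chart n X → Cm n → Matrix (Fin n) (Fin n) ℂ) (lam mu r : ℝ) (f : ℂ → X) : ℝ :=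
  spd w f 0 + mu * TR w f r - lam * TR w' f 1

/-- the discs centred at `x` with `T_{w'} < ∞` -/
def Adm (n : ℕ) {X : Type*} [TopologicalSpace X] [ChartedSpace (Cm n) X]
    (w' : Chart n X → Cm n → Matrix (Fin n) (Fin n) ℂ) (x : X) (f : ℂ → X) : Prop :=
  HolOn n f (ball (0:ℂ) 1) ∧ f 0 = x ∧ TE w' f 1 < ⊤

/-- the statement of the Brody bound for the metric `w` -/
def DiscBound (w : Chart n X → Cm n → Matrix (Fin n) (Fin n) ℂ) (M : ℝ) : Prop :=
  ∀ f : ℂ → X, HolOn n f (ball (0:ℂ) 1) → ∀ z ∈ ball (0:ℂ) 1, spd w f z ≤ M / (1 - ‖z‖) ^ 2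

variable [IsManifold 𝓘(ℂ, Cm n) ω X]

lemma TE_const (h : Chart n X → Cm n → Matrix (Fin n) (Fin n) ℂ) (x : X) (r : ℝ) :
    TE h (fun _ => x) r = 0 := by
  have h1 : ∀ z : ℂ, spd h (fun _ : ℂ => x) z = 0 := by
    intro z
    have h2 : vel (fun _ : ℂ => x) (chartAt (Cm n) x) z = 0 := by
      unfold vel; simp
    unfold spd
    rw [h2]
    simp [quad]
  unfold TE TL
  simp [h1]

lemma spd_const (h : Chart n X → Cm n → Matrix (Fin n) (Fin n) ℂ) (x : X) (z : ℂ) :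
    spd h (fun _ => x) z = 0 := by
  have h2 : vel (fun _ : ℂ => x) (chartAt (Cm n) x) z = 0 := by
    unfold vel; simp
  unfold spd
  rw [h2]
  simp [quad]

lemma holOn_const (x : X) (U : Set ℂ) : HolOn n (fun _ : ℂ => x) U := fun z _ =>
  ⟨continuousAt_const, fun e _ => differentiableAt_const _⟩

lemma adm_const (w' : Chart n X → Cm n → Matrix (Fin n) (Fin n) ℂ) (x : X) :
    Adm n w' x (fun _ => x) := ⟨holOn_const x _, rfl, by rw [TE_const]; exact ENNReal.zero_lt_top⟩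

lemma Phi_const (w w' : Chart n X → Cm n → Matrix (Fin n) (Fin n) ℂ) (lam mu r : ℝ) (x : X) :
    Phi w w' lam mu r (fun _ => x) = 0 := by
  unfold Phi TR
  simp [TE_const, spd_const]

lemma DiscBound.nonneg {M : ℝ} [Nonempty X] (hM : DiscBound w M) : 0 ≤ M := by
  have := hM (fun _ => Classical.arbitrary X) (holOn_const _ _) 0 (by simp)
  simpa [spd_const] using this

lemma DiscBound.le_of_mem {M : ℝ} [Nonempty X] (hM : DiscBound w M) (hf : HolOn n f (ball (0:ℂ) 1))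
    {r : ℝ} (hr1 : r < 1) {z : ℂ} (hz : ‖z‖ ≤ r) : spd w f z ≤ M / (1 - r) ^ 2 := by
  have h1 := hM f hf z (by simpa using lt_of_le_of_lt hz hr1)
  refine h1.trans ?_
  refine div_le_div_of_nonneg_left hM.nonneg (by nlinarith [norm_nonneg z]) ?_
  exact pow_le_pow_left₀ (by linarith) (by linarith) 2

lemma DiscBound.TE_lt_top {M : ℝ} [Nonempty X] (hM : DiscBound w M)
    (hf : HolOn n f (ball (0:ℂ) 1)) {r : ℝ} (hr1 : r < 1) : TE w f r < ⊤ :=
  TL_lt_top fun z hz => hM.le_of_mem hf hr1 (by simpa using (mem_ball_zero_iff.1 hz).le)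

/-- the uniform bound of `T^{(r)}_w` -/
def CR (M r : ℝ) : ℝ := (TL (fun _ => M / (1 - r) ^ 2) r).toReal

lemma DiscBound.TR_le {M : ℝ} [Nonempty X] (hM : DiscBound w M)
    (hf : HolOn n f (ball (0:ℂ) 1)) {r : ℝ} (hr1 : r < 1) : TR w f r ≤ CR M r := by
  unfold TR CR
  refine ENNReal.toReal_mono (TL_lt_top (C := M / (1 - r) ^ 2) fun z hz => le_rfl).ne ?_
  exact TL_le_of_le fun z hz => hM.le_of_mem hf hr1 (by simpa using (mem_ball_zero_iff.1 hz).le)

lemma TR_nonneg (h : Chart n X → Cm n → Matrix (Fin n) (Fin n) ℂ) (f : ℂ → X) (r : ℝ) :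
    0 ≤ TR h f r := ENNReal.toReal_nonneg

lemma DiscBound.Phi_le {M : ℝ} [Nonempty X] (hM : DiscBound w M)
    (hf : HolOn n f (ball (0:ℂ) 1)) {r lam mu : ℝ} (hlam : 0 ≤ lam) (hmu : 0 ≤ mu) (hr1 : r < 1) :
    Phi w w' lam mu r f ≤ M + mu * CR M r := by
  have h1 : spd w f 0 ≤ M := by simpa using hM f hf 0 (by simp)
  have h2 := mul_le_mul_of_nonneg_left (hM.TR_le hf hr1) hmu
  have h3 := mul_nonneg hlam (TR_nonneg w' f 1)
  unfold Phi
  linarith

/-- compactness: limits of discs with `Phi ≥ c` -/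
theorem Phi_limit [T2Space X] [CompactSpace X] [Nonempty X] (hw : IsHermitian w)
    (hw' : IsHermitian w') {M : ℝ} (hM : DiscBound w M) {r lam mu : ℝ} (hlam : 0 < lam)
    (hr1 : r < 1) {f : ℕ → ℂ → X} (hf : ∀ k, HolOn n (f k) (ball (0:ℂ) 1))
    (hfin : ∀ k, TE w' (f k) 1 < ⊤) {x : X} (hx : Tendsto (fun k => f k 0) atTop (𝓝 x))
    {c : ℕ → ℝ} {c₀ : ℝ} (hc : Tendsto c atTop (𝓝 c₀)) (hk : ∀ k, c k ≤ Phi w w' lam mu r (f k)) :
    ∃ g : ℂ → X, Adm n w' x g ∧ c₀ ≤ Phi w w' lam mu r g := by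
  obtain ⟨φ, hφ, g, hg, hconv⟩ := normal hw isOpen_ball f (U := ball (0:ℂ) 1) (by
    intro z hz
    have hz1 : ‖z‖ < 1 := by simpa using hz
    refine ⟨(1 - ‖z‖) / 2, by linarith, M / (1 - (1 + ‖z‖) / 2) ^ 2, Eventually.of_forall ?_⟩
    intro k y hy
    have hy1 : ‖y‖ ≤ (1 + ‖z‖) / 2 := by
      have h1 : ‖y - z‖ < (1 - ‖z‖) / 2 := by simpa [dist_eq_norm] using hy
      have h2 : ‖y‖ ≤ ‖y - z‖ + ‖z‖ := by simpa using norm_add_le (y - z) z
      linarith
    refine ⟨hf k y (by simp only [mem_ball_zero_iff]; linarith), ?_⟩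
    exact hM.le_of_mem (hf k) (by linarith) hy1)
  have hφt : Tendsto φ atTop atTop := hφ.tendsto_atTop
  have h0 : (0:ℂ) ∈ ball (0:ℂ) 1 := by simp
  have hg0 : g 0 = x := tendsto_nhds_unique (hconv.tendsto hg h0) (hx.comp hφt)
  have hs0 : Tendsto (fun k => spd w (f (φ k)) 0) atTop (𝓝 (spd w g 0)) :=
    hconv.spd hw hg h0
  have hmeas : ∀ (h : Chart n X → Cm n → Matrix (Fin n) (Fin n) ℂ), IsHermitian h →
      ∀ (F : ℂ → X), HolOn n F (ball (0:ℂ) 1) → ∀ ρ ≤ (1:ℝ),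
      AEMeasurable (spd h F) (volume.restrict (ball (0:ℂ) ρ)) := fun h hh F hF ρ hρ =>
    ((hF.continuousOn_spd isOpen_ball hh).mono (ball_subset_ball hρ)).aemeasurable measurableSet_ball
  have hT : Tendsto (fun k => TR w (f (φ k)) r) atTop (𝓝 (TR w g r)) := by
    unfold TR
    refine (ENNReal.tendsto_toReal (hM.TE_lt_top hg hr1).ne).comp ?_
    refine TL_tendsto (C := M / (1 - r) ^ 2) (fun k => hmeas w hw _ (hf _) r hr1.le) ?_ ?_
    · intro z hz
      exact hconv.spd hw hg (ball_subset_ball hr1.le hz)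
    · intro k z hz
      exact hM.le_of_mem (hf _) hr1 (by simpa using (mem_ball_zero_iff.1 hz).le)
  set L : ℝ := (spd w g 0 + mu * TR w g r - c₀) / lam with hL
  have hfat : TE w' g 1 ≤ ENNReal.ofReal L := by
    have h1 : TE w' g 1 ≤ liminf (fun k => TE w' (f (φ k)) 1) atTop :=
      TL_fatou (fun k => hmeas w' hw' _ (hf _) 1 le_rfl) fun z hz =>
        hconv.spd hw' hg hz
    refine h1.trans ?_
    have h2 : Tendsto (fun k => ENNReal.ofReal
        ((spd w (f (φ k)) 0 + mu * TR w (f (φ k)) r - c (φ k)) / lam)) atTop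
        (𝓝 (ENNReal.ofReal L)) := by
      refine (ENNReal.continuous_ofReal.tendsto _).comp ?_
      exact ((hs0.add (hT.const_mul mu)).sub (hc.comp hφt)).div_const lam
    rw [← h2.liminf_eq]
    refine liminf_le_liminf (Eventually.of_forall fun k => ?_)
    have h3 : TE w' (f (φ k)) 1 = ENNReal.ofReal (TR w' (f (φ k)) 1) :=
      (ENNReal.ofReal_toReal (hfin (φ k)).ne).symm
    rw [h3]
    refine ENNReal.ofReal_le_ofReal ?_
    rw [le_div_iff₀ hlam]
    have h4 := hk (φ k)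
    unfold Phi at h4
    linarith
  have hfin' : TE w' g 1 < ⊤ := lt_of_le_of_lt hfat ENNReal.ofReal_lt_top
  refine ⟨g, ⟨hg, hg0, hfin'⟩, ?_⟩
  have hL0 : 0 ≤ L := by
    -- limit of nonnegative numbers
    have h2 : Tendsto (fun k => (spd w (f (φ k)) 0 + mu * TR w (f (φ k)) r - c (φ k)) / lam) atTop
        (𝓝 L) := ((hs0.add (hT.const_mul mu)).sub (hc.comp hφt)).div_const lam
    refine ge_of_tendsto h2 (Eventually.of_forall fun k => ?_)
    have h4 := hk (φ k)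
    unfold Phi at h4
    refine div_nonneg ?_ hlam.le
    have h5 := mul_nonneg hlam.le (TR_nonneg w' (f (φ k)) 1)
    linarith
  have h5 : TR w' g 1 ≤ L := ENNReal.toReal_le_of_le_ofReal hL0 hfat
  rw [hL, le_div_iff₀ hlam] at h5
  unfold Phi
  linarith

/-- **Existence of the extremal disc.** -/
theorem exists_max [T2Space X] [CompactSpace X] [Nonempty X] (hw : IsHermitian w)
    (hw' : IsHermitian w') {M : ℝ} (hM : DiscBound w M) {r lam mu : ℝ} (hlam : 0 < lam)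
    (hmu : 0 ≤ mu) (hr1 : r < 1) (x : X) :
    ∃ f : ℂ → X, Adm n w' x f ∧ ∀ g : ℂ → X, Adm n w' x g →
      Phi w w' lam mu r g ≤ Phi w w' lam mu r f := by
  set S : Set ℝ := Phi w w' lam mu r '' {g | Adm n w' x g} with hS
  have hne : S.Nonempty := ⟨_, _, adm_const w' x, rfl⟩
  have hbd : BddAbove S := ⟨M + mu * CR M r, by
    rintro _ ⟨g, hg, rfl⟩
    exact hM.Phi_le hg.1 hlam.le hmu hr1⟩
  obtain ⟨u, -, hu, hmem⟩ := exists_seq_tendsto_sSup hne hbd
  choose f hf hfu using hmem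
  obtain ⟨g, hg, hge⟩ := Phi_limit hw hw' hM hlam hr1 (f := f) (fun k => (hf k).1)
    (fun k => (hf k).2.2) (x := x) (by
      have : (fun k => f k 0) = fun _ => x := by funext k; exact (hf k).2.1
      rw [this]; exact tendsto_const_nhds) hu (fun k => (hfu k).ge)
  exact ⟨g, hg, fun g' hg' => (le_csSup hbd ⟨g', hg', rfl⟩).trans hge⟩

/-- the maximal value -/
def SS (w w' : Chart n X → Cm n → Matrix (Fin n) (Fin n) ℂ) (lam mu r : ℝ) (x : X) : ℝ :=
  sSup (Phi w w' lam mu r '' {g | Adm n w' x g})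

lemma SS_bddAbove {M : ℝ} [Nonempty X] (hM : DiscBound w M) {r lam mu : ℝ} (hlam : 0 ≤ lam)
    (hmu : 0 ≤ mu) (hr1 : r < 1) (x : X) :
    BddAbove (Phi w w' lam mu r '' {g | Adm n w' x g}) := ⟨M + mu * CR M r, by
  rintro _ ⟨g, hg, rfl⟩
  exact hM.Phi_le hg.1 hlam hmu hr1⟩

lemma Phi_le_SS {M : ℝ} [Nonempty X] (hM : DiscBound w M) {r lam mu : ℝ} (hlam : 0 ≤ lam)
    (hmu : 0 ≤ mu) (hr1 : r < 1) {x : X} (hg : Adm n w' x g) :
    Phi w w' lam mu r g ≤ SS w w' lam mu r x :=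
  le_csSup (SS_bddAbove hM hlam hmu hr1 x) ⟨g, hg, rfl⟩

lemma SS_nonneg {M : ℝ} [Nonempty X] (hM : DiscBound w M) {r lam mu : ℝ} (hlam : 0 ≤ lam)
    (hmu : 0 ≤ mu) (hr1 : r < 1) (x : X) : 0 ≤ SS w w' lam mu r x := by
  have := Phi_le_SS (mu := mu) hM hlam hmu hr1 (adm_const w' x)
  rwa [Phi_const] at this

lemma SS_le {M : ℝ} [Nonempty X] (hM : DiscBound w M) {r lam mu : ℝ} (hlam : 0 ≤ lam)
    (hmu : 0 ≤ mu) (hr1 : r < 1) (x : X) : SS w w' lam mu r x ≤ M + mu * CR M r := by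
  refine csSup_le ⟨_, _, adm_const w' x, rfl⟩ ?_
  rintro _ ⟨g, hg, rfl⟩
  exact hM.Phi_le hg.1 hlam hmu hr1

theorem exists_eq_SS [T2Space X] [CompactSpace X] [Nonempty X]
    (hw : IsHermitian w) (hw' : IsHermitian w') {M : ℝ} (hM : DiscBound w M) {r lam mu : ℝ}
    (hlam : 0 < lam) (hmu : 0 ≤ mu) (hr1 : r < 1) (x : X) :
    ∃ f : ℂ → X, Adm n w' x f ∧ Phi w w' lam mu r f = SS w w' lam mu r x := by
  obtain ⟨f, hf, hmax⟩ := exists_max hw hw' hM hlam hmu hr1 x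
  refine ⟨f, hf, le_antisymm (Phi_le_SS hM hlam.le hmu hr1 hf) ?_⟩
  refine csSup_le ⟨_, _, adm_const w' x, rfl⟩ ?_
  rintro _ ⟨g, hg, rfl⟩
  exact hmax g hg

/-- the maximal value is upper semicontinuous in the centre -/
theorem SS_usc [T2Space X] [CompactSpace X] [Nonempty X]
    (hw : IsHermitian w) (hw' : IsHermitian w') {M : ℝ} (hM : DiscBound w M) {r lam mu : ℝ}
    (hlam : 0 < lam) (hmu : 0 ≤ mu) (hr1 : r < 1) :
    UpperSemicontinuous (SS (n := n) (X := X) w w' lam mu r) := by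
  haveI : SecondCountableTopology X := ChartedSpace.secondCountable_of_sigmaCompact (Cm n) X
  intro x y hy
  by_contra hcon
  have hfreq : ∃ᶠ x' in 𝓝 x, y ≤ SS w w' lam mu r x' := by
    simpa only [not_eventually, not_lt] using hcon
  obtain ⟨u, hu, hy'⟩ := exists_seq_forall_of_frequently hfreq
  choose f hf hfe using fun k => exists_eq_SS hw hw' hM hlam hmu hr1 (u k)
  obtain ⟨g, hg, hge⟩ := Phi_limit hw hw' hM hlam hr1 (f := f) (fun k => (hf k).1)
    (fun k => (hf k).2.2) (x := x) (by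
      have : (fun k => f k 0) = u := by funext k; exact (hf k).2.1
      rw [this]; exact hu) (c := fun _ => y) tendsto_const_nhds (fun k => (hy' k).trans (hfe k).ge)
  exact absurd (hge.trans (Phi_le_SS hM hlam.le hmu hr1 hg)) (not_le.2 hy)

/-- the bound `λ T_{w'}(f) ≤ M + μ T^{(r)}_w(f)` at a maximiser -/
lemma TR_le_of_nonneg {M : ℝ} [Nonempty X] (hM : DiscBound w M) {r lam mu : ℝ} {x : X}
    (hf : Adm n w' x f) (h0 : 0 ≤ Phi w w' lam mu r f) :
    lam * TR w' f 1 ≤ M + mu * TR w f r := by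
  have h1 : spd w f 0 ≤ M := by simpa using hM f hf.1 0 (by simp)
  unfold Phi at h0
  linarith

/-- `T^{(ρ)}_h(f)` is the Bochner integral, for `ρ ≤ 1` and `T^{(ρ)} < ∞` -/
lemma TR_eq_integral (hh : IsHermitian h) (hf : HolOn n f (ball (0:ℂ) 1)) {ρ : ℝ}
    (hρ : ρ ≤ 1) : TR h f ρ = ∫ z in ball (0:ℂ) ρ, Gr ρ z * spd h f z := by
  refine TL_toReal ?_ fun z _ => spd_nonneg hh f z
  exact ((hf.continuousOn_spd isOpen_ball hh).mono (ball_subset_ball hρ)).aemeasurable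
    measurableSet_ball

end

end Vale.Agent.P272.BR
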