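import Vale.Agent.P272.BR.Pull
import Vale.Agent.P272.BR.B4

/-! Existence of extremal discs for the functional `c |f'(0)|_w² + μ T^{(r)}_a(f) - λ T_{w'}(f)`
(three metrics, `c ≥ 0`). -/

open scoped Manifold ContDiff ComplexOrder Topology ENNReal
open Complex Set Filter Metric MeasureTheory

set_option linter.all false

noncomputable section

namespace Vale.Agent.P272.BR

open Vale.Agent.P272.K Vale.Agent.P272.GJ

section
variable {n : ℕ} {X : Type*} [TopologicalSpace X] [ChartedSpace (Cm n) X]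
  {w a w' : Chart n X → Cm n → Matrix (Fin n) (Fin n) ℂ} {f g : ℂ → X}

/-- the functional `c |f'(0)|_w² + μ T^{(r)}_a(f) - λ T_{w'}(f)` -/
def PhiC (c : ℝ) (w a w' : Chart n X → Cm n → Matrix (Fin n) (Fin n) ℂ) (lam mu r : ℝ)
    (f : ℂ → X) : ℝ :=
  c * spd w f 0 + mu * TR a f r - lam * TR w' f 1

lemma PhiC_one (w w' : Chart n X → Cm n → Matrix (Fin n) (Fin n) ℂ) (lam mu r : ℝ)
    (f : ℂ → X) : PhiC 1 w w w' lam mu r f = Phi w w' lam mu r f := by
  unfold PhiC Phi; ring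

variable [IsManifold 𝓘(ℂ, Cm n) ω X]

lemma PhiC_const (c : ℝ) (w a w' : Chart n X → Cm n → Matrix (Fin n) (Fin n) ℂ) (lam mu r : ℝ)
    (x : X) : PhiC c w a w' lam mu r (fun _ => x) = 0 := by
  unfold PhiC TR
  simp [TE_const, spd_const]

lemma DiscBound.mono {M M' : ℝ} (hM : DiscBound w M) (h : M ≤ M') : DiscBound w M' := by
  intro f hf z hz
  have hz1 : ‖z‖ < 1 := by simpa using hz
  refine (hM f hf z hz).trans ?_
  exact div_le_div_of_nonneg_right h (by positivity)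

lemma DiscBound.pos_bound {M : ℝ} (hM : DiscBound w M) : ∃ M', 0 < M' ∧ DiscBound w M' :=
  ⟨max M 1, lt_of_lt_of_le one_pos (le_max_right _ _), hM.mono (le_max_left _ _)⟩

/-- the bound for one Hermitian metric gives the bound for every Hermitian metric -/
lemma DiscBound.other [CompactSpace X] (hw : IsHermitian w) (ha : IsHermitian a) {M : ℝ}
    (hM : DiscBound w M) : ∃ M', 0 < M' ∧ DiscBound a M' := by
  obtain ⟨C, hC, hb⟩ := exists_spd_le (n := n) (X := X) hw ha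
  have h1 : DiscBound a (C * M) := by
    intro f hf z hz
    refine (hb f z).trans ?_
    have := mul_le_mul_of_nonneg_left (hM f hf z hz) hC.le
    rwa [mul_div_assoc]
  exact h1.pos_bound

lemma DiscBound.PhiC_le {M Ma : ℝ} [Nonempty X] (hM : DiscBound w M) (hMa : DiscBound a Ma)
    (hf : HolOn n f (ball (0:ℂ) 1)) {c r lam mu : ℝ} (hc : 0 ≤ c) (hlam : 0 ≤ lam)
    (hmu : 0 ≤ mu) (hr1 : r < 1) : PhiC c w a w' lam mu r f ≤ c * M + mu * CR Ma r := by
  have h1 := mul_le_mul_of_nonneg_left (hM.zero f hf) hc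
  have h2 := mul_le_mul_of_nonneg_left (hMa.TR_le hf hr1) hmu
  have h3 := mul_nonneg hlam (TR_nonneg w' f 1)
  unfold PhiC
  linarith

/-- compactness: limits of discs with `PhiC ≥ c` -/
theorem PhiC_limit [T2Space X] [CompactSpace X] [Nonempty X] (hw : IsHermitian w)
    (ha : IsHermitian a) (hw' : IsHermitian w') {M : ℝ} (hM : DiscBound w M) {b r lam mu : ℝ}
    (hlam : 0 < lam) (hr1 : r < 1) {f : ℕ → ℂ → X} (hf : ∀ k, HolOn n (f k) (ball (0:ℂ) 1))
    (hfin : ∀ k, TE w' (f k) 1 < ⊤) {x : X} (hx : Tendsto (fun k => f k 0) atTop (𝓝 x))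
    {c : ℕ → ℝ} {c₀ : ℝ} (hc : Tendsto c atTop (𝓝 c₀))
    (hk : ∀ k, c k ≤ PhiC b w a w' lam mu r (f k)) :
    ∃ g : ℂ → X, Adm n w' x g ∧ c₀ ≤ PhiC b w a w' lam mu r g := by
  obtain ⟨Ma, hMa0, hMa⟩ := hM.other hw ha
  obtain ⟨φ, hφ, g, hg, hconv⟩ := normal hw isOpen_ball f (U := ball (0:ℂ) 1) (by
    intro z hz
    have hz1 : ‖z‖ < 1 := by simpa using hz
    refine ⟨(1 - ‖z‖) / 2, by linarith, M / (1 - (1 + ‖z‖) / 2) ^ 2, Eventually.of_forall ?_⟩
    intro k y hy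
    have hy1 : ‖y‖ ≤ (1 + ‖z‖) / 2 := by
      have h1 : ‖y - z‖ < (1 - ‖z‖) / 2 := by simpa [dist_eq_norm] using hy
      have h2 : ‖y‖ ≤ ‖y - z‖ + ‖z‖ := by simpa using norm_add_le (y - z) z
      linarith
    refine ⟨hf k y (by simp only [mem_ball_zero_iff]; linarith), ?_⟩
    exact hM.le_of_mem (hf k) (by linarith) hy1)
  have hφt : Tendsto φ atTop atTop := hφ.tendsto_atTop
  have h0 : (0:ℂ) ∈ ball (0:ℂ) 1 := by simp
  have hg0 : g 0 = x := tendsto_nhds_unique (hconv.tendsto hg h0) (hx.comp hφt)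
  have hs0 : Tendsto (fun k => spd w (f (φ k)) 0) atTop (𝓝 (spd w g 0)) := hconv.spd hw hg h0
  have hmeas : ∀ (h : Chart n X → Cm n → Matrix (Fin n) (Fin n) ℂ), IsHermitian h →
      ∀ (F : ℂ → X), HolOn n F (ball (0:ℂ) 1) → ∀ ρ ≤ (1:ℝ),
      AEMeasurable (spd h F) (volume.restrict (ball (0:ℂ) ρ)) := fun h hh F hF ρ hρ =>
    ((hF.continuousOn_spd isOpen_ball hh).mono (ball_subset_ball hρ)).aemeasurable
      measurableSet_ball
  have hT : Tendsto (fun k => TR a (f (φ k)) r) atTop (𝓝 (TR a g r)) := by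
    unfold TR
    refine (ENNReal.tendsto_toReal (hMa.TE_lt_top hg hr1).ne).comp ?_
    refine TL_tendsto (C := Ma / (1 - r) ^ 2) (fun k => hmeas a ha _ (hf _) r hr1.le) ?_ ?_
    · intro z hz
      exact hconv.spd ha hg (ball_subset_ball hr1.le hz)
    · intro k z hz
      exact hMa.le_of_mem (hf _) hr1 (by simpa using (mem_ball_zero_iff.1 hz).le)
  set L : ℝ := (b * spd w g 0 + mu * TR a g r - c₀) / lam with hL
  have h2 : Tendsto (fun k => (b * spd w (f (φ k)) 0 + mu * TR a (f (φ k)) r - c (φ k)) / lam)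
      atTop (𝓝 L) := (((hs0.const_mul b).add (hT.const_mul mu)).sub (hc.comp hφt)).div_const lam
  have hfat : TE w' g 1 ≤ ENNReal.ofReal L := by
    have h1 : TE w' g 1 ≤ liminf (fun k => TE w' (f (φ k)) 1) atTop :=
      TL_fatou (fun k => hmeas w' hw' _ (hf _) 1 le_rfl) fun z hz => hconv.spd hw' hg hz
    refine h1.trans ?_
    have h2' := (ENNReal.continuous_ofReal.tendsto _).comp h2
    rw [← h2'.liminf_eq]
    refine liminf_le_liminf (Eventually.of_forall fun k => ?_)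
    have h3 : TE w' (f (φ k)) 1 = ENNReal.ofReal (TR w' (f (φ k)) 1) :=
      (ENNReal.ofReal_toReal (hfin (φ k)).ne).symm
    rw [h3]
    refine ENNReal.ofReal_le_ofReal ?_
    rw [le_div_iff₀ hlam]
    have h4 := hk (φ k)
    unfold PhiC at h4
    linarith
  have hfin' : TE w' g 1 < ⊤ := lt_of_le_of_lt hfat ENNReal.ofReal_lt_top
  refine ⟨g, ⟨hg, hg0, hfin'⟩, ?_⟩
  have hL0 : 0 ≤ L := by
    refine ge_of_tendsto h2 (Eventually.of_forall fun k => ?_)
    have h4 := hk (φ k)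
    unfold PhiC at h4
    refine div_nonneg ?_ hlam.le
    have h5 := mul_nonneg hlam.le (TR_nonneg w' (f (φ k)) 1)
    linarith
  have h5 : TR w' g 1 ≤ L := ENNReal.toReal_le_of_le_ofReal hL0 hfat
  rw [hL, le_div_iff₀ hlam] at h5
  unfold PhiC
  linarith

/-- **Existence of the extremal disc**, general functional. -/
theorem exists_maxC [T2Space X] [CompactSpace X] [Nonempty X] (hw : IsHermitian w)
    (ha : IsHermitian a) (hw' : IsHermitian w') {M : ℝ} (hM : DiscBound w M) {c r lam mu : ℝ}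
    (hc : 0 ≤ c) (hlam : 0 < lam) (hmu : 0 ≤ mu) (hr1 : r < 1) (x : X) :
    ∃ f : ℂ → X, Adm n w' x f ∧ ∀ g : ℂ → X, Adm n w' x g →
      PhiC c w a w' lam mu r g ≤ PhiC c w a w' lam mu r f := by
  obtain ⟨Ma, hMa0, hMa⟩ := hM.other hw ha
  set S : Set ℝ := PhiC c w a w' lam mu r '' {g | Adm n w' x g} with hS
  have hne : S.Nonempty := ⟨_, _, adm_const w' x, rfl⟩
  have hbd : BddAbove S := ⟨c * M + mu * CR Ma r, by
    rintro _ ⟨g, hg, rfl⟩
    exact hM.PhiC_le hMa hg.1 hc hlam.le hmu hr1⟩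
  obtain ⟨u, -, hu, hmem⟩ := exists_seq_tendsto_sSup hne hbd
  choose f hf hfu using hmem
  obtain ⟨g, hg, hge⟩ := PhiC_limit hw ha hw' hM hlam hr1 (f := f) (fun k => (hf k).1)
    (fun k => (hf k).2.2) (x := x) (by
      have : (fun k => f k 0) = fun _ => x := by funext k; exact (hf k).2.1
      rw [this]; exact tendsto_const_nhds) hu (fun k => (hfu k).ge)
  exact ⟨g, hg, fun g' hg' => (le_csSup hbd ⟨g', hg', rfl⟩).trans hge⟩

/-- the maximal value -/
def SSC (c : ℝ) (w a w' : Chart n X → Cm n → Matrix (Fin n) (Fin n) ℂ) (lam mu r : ℝ) (x : X) :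
    ℝ := sSup (PhiC c w a w' lam mu r '' {g | Adm n w' x g})

section
variable [T2Space X] [CompactSpace X] [Nonempty X] (hw : IsHermitian w)
    (ha : IsHermitian a) (hw' : IsHermitian w') {M : ℝ} (hM : DiscBound w M) {c r lam mu : ℝ}
    (hc : 0 ≤ c) (hlam : 0 < lam) (hmu : 0 ≤ mu) (hr1 : r < 1)
include hw ha hM hc hlam hmu hr1

lemma PhiC_le_SSC {x : X} (hg : Adm n w' x g) :
    PhiC c w a w' lam mu r g ≤ SSC c w a w' lam mu r x := by
  obtain ⟨Ma, hMa0, hMa⟩ := hM.other hw ha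
  refine le_csSup ⟨c * M + mu * CR Ma r, ?_⟩ ⟨g, hg, rfl⟩
  rintro _ ⟨g, hg, rfl⟩
  exact hM.PhiC_le hMa hg.1 hc hlam.le hmu hr1

lemma SSC_nonneg (x : X) : 0 ≤ SSC c w a w' lam mu r x := by
  have := PhiC_le_SSC hw ha hM hc hlam hmu hr1 (adm_const w' x)
  rwa [PhiC_const] at this

lemma exists_SSC_le : ∃ C : ℝ, ∀ x : X, SSC c w a w' lam mu r x ≤ C := by
  obtain ⟨Ma, hMa0, hMa⟩ := hM.other hw ha
  refine ⟨c * M + mu * CR Ma r, fun x => csSup_le ⟨_, _, adm_const w' x, rfl⟩ ?_⟩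
  rintro _ ⟨g, hg, rfl⟩
  exact hM.PhiC_le hMa hg.1 hc hlam.le hmu hr1

include hw'

theorem exists_eq_SSC (x : X) :
    ∃ f : ℂ → X, Adm n w' x f ∧ PhiC c w a w' lam mu r f = SSC c w a w' lam mu r x := by
  obtain ⟨f, hf, hmax⟩ := exists_maxC hw ha hw' hM hc hlam hmu hr1 x
  refine ⟨f, hf, le_antisymm (PhiC_le_SSC hw ha hM hc hlam hmu hr1 hf) ?_⟩
  refine csSup_le ⟨_, _, adm_const w' x, rfl⟩ ?_
  rintro _ ⟨g, hg, rfl⟩
  exact hmax g hg

/-- the maximal value is upper semicontinuous in the centre -/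
theorem SSC_usc : UpperSemicontinuous (SSC (n := n) (X := X) c w a w' lam mu r) := by
  haveI : SecondCountableTopology X := ChartedSpace.secondCountable_of_sigmaCompact (Cm n) X
  intro x y hy
  by_contra hcon
  have hfreq : ∃ᶠ x' in 𝓝 x, y ≤ SSC c w a w' lam mu r x' := by
    simpa only [not_eventually, not_lt] using hcon
  obtain ⟨u, hu, hy'⟩ := exists_seq_forall_of_frequently hfreq
  choose f hf hfe using fun k => exists_eq_SSC hw ha hw' hM hc hlam hmu hr1 (u k)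
  obtain ⟨g, hg, hge⟩ := PhiC_limit hw ha hw' hM hlam hr1 (f := f) (fun k => (hf k).1)
    (fun k => (hf k).2.2) (x := x) (by
      have : (fun k => f k 0) = u := by funext k; exact (hf k).2.1
      rw [this]; exact hu) (c := fun _ => y) tendsto_const_nhds (fun k => (hy' k).trans (hfe k).ge)
  exact absurd (hge.trans (PhiC_le_SSC hw ha hM hc hlam hmu hr1 hg)) (not_le.2 hy)

end

/-- the bound at a maximiser: `λ T_{w'}(f) ≤ c M + μ T^{(r)}_a(f)` -/
lemma TR_le_of_nonnegC {M : ℝ} {c r lam mu : ℝ} (hM : DiscBound w M) (hc : 0 ≤ c) {x : X}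
    (hf : Adm n w' x f) (h0 : 0 ≤ PhiC c w a w' lam mu r f) :
    lam * TR w' f 1 ≤ c * M + mu * TR a f r := by
  have h1 := mul_le_mul_of_nonneg_left (hM.zero f hf.1) hc
  unfold PhiC at h0
  linarith

/-- the inequality given by a competitor `f ∘ φ` at a maximiser, general functional -/
theorem max_compC {φ : ℂ → ℂ} {x : X} {c lam mu r : ℝ} (hlam : 0 ≤ lam) (hw' : IsHermitian w')
    (hf : Adm n w' x f)
    (hmax : ∀ g : ℂ → X, Adm n w' x g → PhiC c w a w' lam mu r g ≤ PhiC c w a w' lam mu r f)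
    (hd : DifferentiableOn ℂ φ (ball (0:ℂ) 1)) (hinj : InjOn φ (ball (0:ℂ) 1))
    (hmaps : MapsTo φ (ball (0:ℂ) 1) (ball (0:ℂ) 1))
    (hle : ∀ z ∈ ball (0:ℂ) 1, ‖φ z‖ ≤ ‖z‖) {A : Set ℂ} (hA : MeasurableSet A)
    (hA1 : A ⊆ ball (0:ℂ) 1) (hA2 : ∀ z ∈ ball (0:ℂ) 1, φ z ∉ A) :
    lam * ∫ z in A, Gr 1 z * spd w' f z ≤ c * ((1 - ‖deriv φ 0‖ ^ 2) * spd w f 0) +
      mu * (TR a f r - TR a (fun z => f (φ z)) r) := by
  have h0 : φ 0 = 0 := by
    have := hle 0 (by simp)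
    simpa using this
  have h1 := hmax _ (hf.comp hw' hd hinj hmaps hle)
  have h2 := (TR_comp_le hw' hf.1 hf.2.2 hd hinj hmaps hle hA hA1 hA2).2
  have h3 : spd w (fun z => f (φ z)) 0 = ‖deriv φ 0‖ ^ 2 * spd w f 0 := by
    have h4 := spd_comp (h := w) (f := f) (φ := φ) (z := 0)
      (hf.1 _ (by rw [h0]; simp)) (hd.differentiableAt (isOpen_ball.mem_nhds (by simp)))
    rwa [h0] at h4
  have h5 := mul_le_mul_of_nonneg_left h2 hlam
  unfold PhiC at h1
  rw [h3] at h1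
  linarith

end

end Vale.Agent.P272.BR
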