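import Vale.Agent.P272.BR.Stay
import Mathlib.Geometry.Manifold.ChartedSpace
import Mathlib.Topology.Sequences
import Mathlib.Topology.UniformSpace.UniformConvergenceTopology
import Mathlib.Topology.MetricSpace.ProperSpace

/-! Normal families: a sequence of holomorphic maps of locally bounded speed to a compact complex
manifold has a locally uniformly convergent subsequence. -/

open scoped Manifold ContDiff ComplexOrder Topology
open Complex Set Filter Metric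

set_option linter.all false

noncomputable section

namespace Vale.Agent.P272.BR

open Vale.Agent.P272.K
open Vale.Agent.P272.K.LIN (Cov)

lemma tendstoUniformlyOn_of_lip {E : Type*} [NormedAddCommGroup E] {y : ℕ → ℂ → E} {y₀ : ℂ → E}
    {z : ℂ} {δ Λ : ℝ}
    (hlip : ∀ᶠ k in atTop, ∀ w ∈ ball z δ, ∀ w' ∈ ball z δ, ‖y k w - y k w'‖ ≤ Λ * ‖w - w'‖)
    (hpt : ∀ w ∈ ball z δ, Tendsto (fun k => y k w) atTop (𝓝 (y₀ w))) :
    TendstoUniformlyOn y y₀ atTop (ball z δ) := by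
  have hlip0 : ∀ w ∈ ball z δ, ∀ w' ∈ ball z δ, ‖y₀ w - y₀ w'‖ ≤ Λ * ‖w - w'‖ := by
    intro w hw w' hw'
    refine le_of_tendsto ((hpt w hw).sub (hpt w' hw')).norm ?_
    filter_upwards [hlip] with k hk using hk w hw w' hw'
  rw [Metric.tendstoUniformlyOn_iff]
  intro ε hε
  set η : ℝ := ε / (3 * (|Λ| + 1)) with hη
  have hη0 : 0 < η := by positivity
  have hηΛ : |Λ| * η ≤ ε / 3 := by
    rw [hη]
    rw [← mul_div_assoc, div_le_div_iff₀ (by positivity) (by positivity)]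
    nlinarith [abs_nonneg Λ]
  have htb : TotallyBounded (ball z δ) :=
    (isCompact_closedBall z δ).totallyBounded.subset ball_subset_closedBall
  obtain ⟨t, hts, htf, hcov⟩ := Metric.finite_approx_of_totallyBounded htb η hη0
  have hev : ∀ᶠ k in atTop, ∀ x ∈ t, ‖y k x - y₀ x‖ < ε / 3 := by
    refine (htf.eventually_all).2 fun x hx => ?_
    have := Metric.tendsto_nhds.1 (hpt x (hts hx)) (ε / 3) (by positivity)
    filter_upwards [this] with k hk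
    rwa [dist_eq_norm] at hk
  filter_upwards [hlip, hev] with k hk hk' w hw
  obtain ⟨x, hx, hwx⟩ := mem_iUnion₂.1 (hcov hw)
  rw [mem_ball, dist_eq_norm] at hwx
  have h1 : ‖y₀ w - y₀ x‖ ≤ ε / 3 := by
    calc ‖y₀ w - y₀ x‖ ≤ Λ * ‖w - x‖ := hlip0 w hw x (hts hx)
      _ ≤ |Λ| * ‖w - x‖ := by gcongr; exact le_abs_self Λ
      _ ≤ |Λ| * η := by gcongr
      _ ≤ ε / 3 := hηΛ
  have h2 : ‖y k w - y k x‖ ≤ ε / 3 := by
    calc ‖y k w - y k x‖ ≤ Λ * ‖w - x‖ := hk w hw x (hts hx)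
      _ ≤ |Λ| * ‖w - x‖ := by gcongr; exact le_abs_self Λ
      _ ≤ |Λ| * η := by gcongr
      _ ≤ ε / 3 := hηΛ
  have h3 := hk' x hx
  rw [dist_eq_norm]
  calc ‖y₀ w - y k w‖ = ‖(y₀ w - y₀ x) - (y k w - y k x) - (y k x - y₀ x)‖ := by
        congr 1; abel
    _ ≤ ‖y₀ w - y₀ x‖ + ‖y k w - y k x‖ + ‖y k x - y₀ x‖ :=
        (norm_sub_le _ _).trans (by gcongr; exact norm_sub_le _ _)
    _ < ε := by linarith

variable {n : ℕ} {X : Type*} [TopologicalSpace X] [ChartedSpace (Cm n) X]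
  {h h' : Chart n X → Cm n → Matrix (Fin n) (Fin n) ℂ} {f g : ℂ → X} {e e' : Chart n X} {z : ℂ}
  {U V : Set ℂ} {φ : ℂ → ℂ}
  [IsManifold 𝓘(ℂ, Cm n) ω X] {𝒞 : Cov (Cm n) X} {L C ρ : ℝ} {i : Fin 𝒞.N}

/-- the closed chart ball as a subset of `X` -/
def KK (𝒞 : Cov (Cm n) X) (i : Fin 𝒞.N) : Set X :=
  (𝒞.e i).symm '' closedBall (𝒞.c i) (2 * 𝒞.r i)

lemma KK_closed [T2Space X] : IsClosed (KK 𝒞 i) :=
  ((isCompact_closedBall (𝒞.c i) (2 * 𝒞.r i)).image_of_continuousOn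
    ((𝒞.e i).continuousOn_symm.mono ((closedBall_subset_closedBall
      (by linarith [𝒞.r_pos i])).trans (𝒞.sub i)))).isClosed

lemma mem_KK {x : X} : x ∈ KK 𝒞 i ↔ x ∈ (𝒞.e i).source ∧
    𝒞.e i x ∈ closedBall (𝒞.c i) (2 * 𝒞.r i) := by
  have hsub : closedBall (𝒞.c i) (2 * 𝒞.r i) ⊆ (𝒞.e i).target :=
    (closedBall_subset_closedBall (by linarith [𝒞.r_pos i])).trans (𝒞.sub i)
  constructor
  · rintro ⟨y, hy, rfl⟩
    refine ⟨(𝒞.e i).map_target (hsub hy), ?_⟩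
    rw [(𝒞.e i).right_inv (hsub hy)]; exact hy
  · rintro ⟨h1, h2⟩
    exact ⟨_, h2, (𝒞.e i).left_inv h1⟩

/-- The local form of the hypothesis after a first extraction. -/
lemma local_chart [T2Space X] (hL : CovConst 𝒞 h L) (hh : IsHermitian h) {F : ℕ → ℂ → X}
    {q : ℕ → ℂ} (hq : DenseRange q) {a : ℕ → X}
    (ha : ∀ j, Tendsto (fun k => F k (q j)) atTop (𝓝 (a j))) (hU : U ∈ 𝓝 z)
    (H : ∃ ρ > 0, ∃ C : ℝ, ∀ᶠ k in atTop, ∀ w ∈ ball z ρ, HolAt n (F k) w ∧ spd h (F k) w ≤ C) :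
    ∃ i : Fin 𝒞.N, ∃ δ > 0, ∃ Λ : ℝ, ball z δ ⊆ U ∧
      (∀ᶠ k in atTop, (∀ w ∈ ball z δ, HolAt n (F k) w ∧ F k w ∈ KK 𝒞 i) ∧
        ∀ w ∈ ball z δ, ∀ w' ∈ ball z δ, ‖𝒞.e i (F k w) - 𝒞.e i (F k w')‖ ≤ Λ * ‖w - w'‖) := by
  obtain ⟨ρ, hρ, C₀, hH⟩ := H
  obtain ⟨ρ', hρ', hb⟩ := Metric.mem_nhds_iff.1 hU
  have hL0 : 0 < L := by linarith [hL.1]
  set C : ℝ := √|C₀| + 1 with hCdef
  have hC : 0 < C := by positivity
  have hC₀ : C₀ ≤ C ^ 2 := by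
    have h1 : |C₀| = √|C₀| ^ 2 := (Real.sq_sqrt (abs_nonneg _)).symm
    have h2 : 0 ≤ √|C₀| := Real.sqrt_nonneg _
    have h3 := le_abs_self C₀
    nlinarith
  obtain ⟨r, hr, hrmin⟩ : ∃ r > 0, ∀ i, r ≤ 𝒞.r i := by
    rcases isEmpty_or_nonempty (Fin 𝒞.N) with hn | hn
    · exact ⟨1, one_pos, fun i => (IsEmpty.false i).elim⟩
    · obtain ⟨i₀, hi₀⟩ := Finite.exists_min 𝒞.r
      exact ⟨𝒞.r i₀, 𝒞.r_pos i₀, hi₀⟩
  set ρ₁ : ℝ := min ρ ρ' with hρ₁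
  have hρ₁0 : 0 < ρ₁ := lt_min hρ hρ'
  set δ : ℝ := min (ρ₁ / 4) (r / (L * C) / 4) with hδ
  have hδ0 : 0 < δ := lt_min (by positivity) (by positivity)
  obtain ⟨j, hj⟩ : ∃ j, q j ∈ ball z δ := hq.exists_mem_open isOpen_ball ⟨z, mem_ball_self hδ0⟩
  obtain ⟨i, hi, hai⟩ := 𝒞.cover (a j)
  have hnb : (𝒞.e i).source ∩ (𝒞.e i) ⁻¹' ball (𝒞.c i) (𝒞.r i) ∈ 𝓝 (a j) :=
    ((𝒞.e i).isOpen_inter_preimage isOpen_ball).mem_nhds ⟨hi, hai⟩
  have hd1 : δ ≤ ρ₁ / 4 := min_le_left _ _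
  have hd2 : δ ≤ r / (L * C) / 4 := min_le_right _ _
  have hjz : dist (q j) z < δ := hj
  have hsub1 : ball z δ ⊆ ball (q j) (2 * δ) := by
    intro w hw
    rw [mem_ball] at hw ⊢
    have := dist_triangle_right w (q j) z
    linarith
  have hsub2 : ball (q j) (ρ₁ / 2) ⊆ ball z ρ := by
    intro w hw
    rw [mem_ball] at hw ⊢
    have h1 := dist_triangle w (q j) z
    have h2 : ρ₁ ≤ ρ := min_le_left _ _
    linarith
  refine ⟨i, δ, hδ0, L * C, ?_, ?_⟩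
  · refine (ball_subset_ball ?_).trans hb
    have : ρ₁ ≤ ρ' := min_le_right _ _
    linarith
  · filter_upwards [hH, (ha j).eventually hnb] with k hk hk'
    have h1 := lip (i := i) (f := F k) (z := q j) (ρ := ρ₁ / 2) hL hh hC
      (fun w hw => ⟨(hk w (hsub2 hw)).1, (hk w (hsub2 hw)).2.trans hC₀⟩) hk'.1 hk'.2
      (δ := 2 * δ) (by linarith) (by
        have h3 : r / (L * C) ≤ 𝒞.r i / (L * C) := by
          have := hrmin i
          gcongr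
        have h4 : 0 < r / (L * C) := by positivity
        linarith)
    refine ⟨fun w hw => ⟨(hk w ?_).1, mem_KK.2 ⟨(h1.1 w (hsub1 hw)).1,
      ball_subset_closedBall (h1.1 w (hsub1 hw)).2⟩⟩,
      fun w hw w' hw' => h1.2.2 w (hsub1 hw) w' (hsub1 hw')⟩
    refine ball_subset_ball ?_ hw
    have h2 : ρ₁ ≤ ρ := min_le_left _ _
    linarith

/-- pointwise convergence -/
lemma exists_limit [T2Space X] {F : ℕ → ℂ → X}
    {q : ℕ → ℂ} (hq : DenseRange q) {a : ℕ → X}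
    (ha : ∀ j, Tendsto (fun k => F k (q j)) atTop (𝓝 (a j))) {δ Λ : ℝ}
    (H : ∀ᶠ k in atTop, (∀ w ∈ ball z δ, HolAt n (F k) w ∧ F k w ∈ KK 𝒞 i) ∧
        ∀ w ∈ ball z δ, ∀ w' ∈ ball z δ, ‖𝒞.e i (F k w) - 𝒞.e i (F k w')‖ ≤ Λ * ‖w - w'‖)
    {w : ℂ} (hw : w ∈ ball z δ) :
    ∃ x, Tendsto (fun k => F k w) atTop (𝓝 x) := by
  have hcau : CauchySeq (fun k => 𝒞.e i (F k w)) := by
    rw [Metric.cauchySeq_iff]
    intro ε hε
    set η : ℝ := ε / (3 * (|Λ| + 1)) with hη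
    have hη0 : 0 < η := by positivity
    have hηΛ : |Λ| * η ≤ ε / 3 := by
      rw [hη]
      rw [← mul_div_assoc, div_le_div_iff₀ (by positivity) (by positivity)]
      nlinarith [abs_nonneg Λ]
    obtain ⟨j, hj⟩ : ∃ j, q j ∈ ball z δ ∩ ball w η :=
      hq.exists_mem_open (isOpen_ball.inter isOpen_ball) ⟨w, hw, mem_ball_self hη0⟩
    -- the limit at `q j` is in the chart
    have haj : a j ∈ KK 𝒞 i := by
      refine KK_closed.mem_of_tendsto (ha j) ?_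
      filter_upwards [H] with k hk using (hk.1 _ hj.1).2
    have h1 : Tendsto (fun k => 𝒞.e i (F k (q j))) atTop (𝓝 (𝒞.e i (a j))) :=
      ((𝒞.e i).continuousAt (mem_KK.1 haj).1).tendsto.comp (ha j)
    have h2 : CauchySeq (fun k => 𝒞.e i (F k (q j))) := h1.cauchySeq
    rw [Metric.cauchySeq_iff] at h2
    obtain ⟨N₁, hN₁⟩ := h2 (ε / 3) (by positivity)
    obtain ⟨N₂, hN₂⟩ := eventually_atTop.1 H
    have h3 : ∀ k ≥ N₂, ‖𝒞.e i (F k w) - 𝒞.e i (F k (q j))‖ ≤ ε / 3 := by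
      intro k hk
      have h4 : ‖w - q j‖ ≤ η := by
        have := hj.2
        rw [mem_ball, dist_comm, dist_eq_norm] at this
        exact this.le
      calc _ ≤ Λ * ‖w - q j‖ := (hN₂ k hk).2 w hw _ hj.1
        _ ≤ |Λ| * ‖w - q j‖ := by gcongr; exact le_abs_self Λ
        _ ≤ |Λ| * η := by gcongr
        _ ≤ ε / 3 := hηΛ
    refine ⟨max N₁ N₂, fun k hk l hl => ?_⟩
    have h5 := h3 k ((le_max_right _ _).trans hk)
    have h6 := h3 l ((le_max_right _ _).trans hl)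
    have h7 := hN₁ k ((le_max_left _ _).trans hk) l ((le_max_left _ _).trans hl)
    rw [dist_eq_norm] at h7 ⊢
    calc ‖𝒞.e i (F k w) - 𝒞.e i (F l w)‖ = ‖(𝒞.e i (F k w) - 𝒞.e i (F k (q j))) -
          (𝒞.e i (F l w) - 𝒞.e i (F l (q j))) + (𝒞.e i (F k (q j)) - 𝒞.e i (F l (q j)))‖ := by
          congr 1; abel
      _ ≤ ‖𝒞.e i (F k w) - 𝒞.e i (F k (q j))‖ + ‖𝒞.e i (F l w) - 𝒞.e i (F l (q j))‖ +
          ‖𝒞.e i (F k (q j)) - 𝒞.e i (F l (q j))‖ :=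
          (norm_add_le _ _).trans (by gcongr; exact norm_sub_le _ _)
      _ < ε := by linarith
  obtain ⟨y, hy⟩ := cauchySeq_tendsto_of_complete hcau
  have hym : y ∈ closedBall (𝒞.c i) (2 * 𝒞.r i) := by
    refine isClosed_closedBall.mem_of_tendsto hy ?_
    filter_upwards [H] with k hk using (mem_KK.1 (hk.1 w hw).2).2
  have hyt : y ∈ (𝒞.e i).target :=
    𝒞.sub i (closedBall_subset_closedBall (by linarith [𝒞.r_pos i]) hym)
  refine ⟨(𝒞.e i).symm y, ?_⟩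
  have h8 : Tendsto (fun k => (𝒞.e i).symm (𝒞.e i (F k w))) atTop (𝓝 ((𝒞.e i).symm y)) :=
    ((𝒞.e i).continuousAt_symm hyt).tendsto.comp hy
  refine h8.congr' ?_
  filter_upwards [H] with k hk
  exact (𝒞.e i).left_inv (mem_KK.1 (hk.1 w hw).2).1

/-- chart convergence from convergence in one chart of the cover -/
lemma conv_of_chart [T2Space X] {F : ℕ → ℂ → X} {δ Λ : ℝ} (hδ : 0 < δ)
    (H : ∀ᶠ k in atTop, (∀ w ∈ ball z δ, HolAt n (F k) w ∧ F k w ∈ KK 𝒞 i) ∧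
        ∀ w ∈ ball z δ, ∀ w' ∈ ball z δ, ‖𝒞.e i (F k w) - 𝒞.e i (F k w')‖ ≤ Λ * ‖w - w'‖)
    (hg : ∀ w ∈ ball z δ, Tendsto (fun k => F k w) atTop (𝓝 (g w))) :
    HolAt n g z ∧ ∀ e : Chart n X, At e (g z) → ∃ ρ > 0, ρ ≤ δ ∧ (∀ w ∈ ball z ρ, At e (g w)) ∧
      (∀ᶠ k in atTop, ∀ w ∈ ball z ρ, At e (F k w) ∧ HolAt n (F k) w) ∧
      TendstoUniformlyOn (fun k w => e (F k w)) (fun w => e (g w)) atTop (ball z ρ) := by
  have hKt : closedBall (𝒞.c i) (2 * 𝒞.r i) ⊆ (𝒞.e i).target :=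
    (closedBall_subset_closedBall (by linarith [𝒞.r_pos i])).trans (𝒞.sub i)
  -- `g` maps the ball to the closed chart ball
  have hgK : ∀ w ∈ ball z δ, g w ∈ KK 𝒞 i := fun w hw => by
    refine KK_closed.mem_of_tendsto (hg w hw) ?_
    filter_upwards [H] with k hk using (hk.1 w hw).2
  have hpt : ∀ w ∈ ball z δ, Tendsto (fun k => 𝒞.e i (F k w)) atTop (𝓝 (𝒞.e i (g w))) :=
    fun w hw => ((𝒞.e i).continuousAt (mem_KK.1 (hgK w hw)).1).tendsto.comp (hg w hw)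
  have hunif : TendstoUniformlyOn (fun k w => 𝒞.e i (F k w)) (fun w => 𝒞.e i (g w)) atTop
      (ball z δ) :=
    tendstoUniformlyOn_of_lip (H.mono fun k hk => hk.2) hpt
  have hdiff : ∀ᶠ k in atTop, DifferentiableOn ℂ (fun w => 𝒞.e i (F k w)) (ball z δ) := by
    filter_upwards [H] with k hk w hw
    exact ((hk.1 w hw).1.2 _ ⟨𝒞.mem i, (mem_KK.1 (hk.1 w hw).2).1⟩).differentiableWithinAt
  have hgd : DifferentiableOn ℂ (fun w => 𝒞.e i (g w)) (ball z δ) :=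
    hunif.tendstoLocallyUniformlyOn.differentiableOn hdiff isOpen_ball
  have hzb : z ∈ ball z δ := mem_ball_self hδ
  have hgz := mem_KK.1 (hgK z hzb)
  have hgdz : DifferentiableAt ℂ (fun w => 𝒞.e i (g w)) z :=
    hgd.differentiableAt (ball_mem_nhds z hδ)
  have hholz : HolAt n g z := by
    have h1 : HolAt n (fun w => (𝒞.e i).symm (𝒞.e i (g w))) z :=
      holAt_symm (𝒞.mem i) ((𝒞.e i).map_source hgz.1) hgdz
    refine h1.congr ?_
    filter_upwards [ball_mem_nhds z hδ] with w hw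
    exact ((𝒞.e i).left_inv (mem_KK.1 (hgK w hw)).1).symm
  refine ⟨hholz, fun e he => ?_⟩
  -- the domain of the transition map
  set y₀ : Cm n := 𝒞.e i (g z) with hy₀
  set W : Set (Cm n) := (𝒞.e i).target ∩ (𝒞.e i).symm ⁻¹' e.source with hW
  have hWo : IsOpen W := (𝒞.e i).symm.isOpen_inter_preimage e.open_source
  have hy₀W : y₀ ∈ W := ⟨(𝒞.e i).map_source hgz.1, by
    show (𝒞.e i).symm (𝒞.e i (g z)) ∈ e.source
    rw [(𝒞.e i).left_inv hgz.1]; exact he.2⟩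
  obtain ⟨η, hη, hηW⟩ : ∃ η > 0, closedBall y₀ (2 * η) ⊆ W := by
    obtain ⟨ε, hε, hb⟩ := Metric.isOpen_iff.1 hWo y₀ hy₀W
    exact ⟨ε / 4, by positivity, (closedBall_subset_ball (by linarith)).trans hb⟩
  have hτ : ContinuousOn (fun y => e ((𝒞.e i).symm y)) (closedBall y₀ (2 * η)) := by
    have h1 : ContinuousOn (𝒞.e i).symm W := (𝒞.e i).continuousOn_symm.mono inter_subset_left
    exact (e.continuousOn.comp h1 fun y hy => hy.2).mono hηW
  have hτu : UniformContinuousOn (fun y => e ((𝒞.e i).symm y)) (closedBall y₀ (2 * η)) :=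
    (isCompact_closedBall y₀ (2 * η)).uniformContinuousOn_of_continuous hτ
  obtain ⟨ρ, hρ, hρδ, hρη⟩ : ∃ ρ > 0, ρ ≤ δ ∧ ∀ w ∈ ball z ρ, 𝒞.e i (g w) ∈ ball y₀ η := by
    have h1 : ∀ᶠ w in 𝓝 z, 𝒞.e i (g w) ∈ ball y₀ η :=
      hgdz.continuousAt.eventually (ball_mem_nhds y₀ hη)
    obtain ⟨ρ, hρ, hb⟩ := Metric.eventually_nhds_iff_ball.1 h1
    exact ⟨min ρ δ, lt_min hρ hδ, min_le_right _ _, fun w hw =>
      hb w (ball_subset_ball (min_le_left _ _) hw)⟩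
  have hbs : ball z ρ ⊆ ball z δ := ball_subset_ball hρδ
  have hev : ∀ᶠ k in atTop, ∀ w ∈ ball z ρ, 𝒞.e i (F k w) ∈ closedBall y₀ (2 * η) := by
    have h1 := Metric.tendstoUniformlyOn_iff.1 hunif η hη
    filter_upwards [h1] with k hk w hw
    have h2 := hk w (hbs hw)
    have h3 := hρη w hw
    rw [mem_ball] at h3
    rw [mem_closedBall]
    have h4 := dist_triangle_left (𝒞.e i (F k w)) y₀ (𝒞.e i (g w))
    linarith
  have hAtg : ∀ w ∈ ball z ρ, At e (g w) := by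
    intro w hw
    have h1 := hηW (ball_subset_closedBall (ball_subset_ball (by linarith) (hρη w hw)))
    refine ⟨he.1, ?_⟩
    have h2 : (𝒞.e i).symm (𝒞.e i (g w)) ∈ e.source := h1.2
    rwa [(𝒞.e i).left_inv (mem_KK.1 (hgK w (hbs hw))).1] at h2
  refine ⟨ρ, hρ, hρδ, hAtg, ?_, ?_⟩
  · filter_upwards [H, hev] with k hk hk' w hw
    refine ⟨⟨he.1, ?_⟩, (hk.1 w (hbs hw)).1⟩
    have h2 : (𝒞.e i).symm (𝒞.e i (F k w)) ∈ e.source := (hηW (hk' w hw)).2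
    rwa [(𝒞.e i).left_inv (mem_KK.1 (hk.1 w (hbs hw)).2).1] at h2
  · have h1 : TendstoUniformlyOn (fun k w => e ((𝒞.e i).symm (𝒞.e i (F k w))))
        (fun w => e ((𝒞.e i).symm (𝒞.e i (g w)))) atTop (ball z ρ) :=
      UniformContinuousOn.comp_tendstoUniformlyOn_eventually (s := closedBall y₀ (2 * η)) hev
        (fun w hw => ball_subset_closedBall (ball_subset_ball (by linarith) (hρη w hw)))
        hτu (hunif.mono hbs)
    have h2 : EqOn (fun w => e ((𝒞.e i).symm (𝒞.e i (g w)))) (fun w => e (g w)) (ball z ρ) := by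
      intro w hw
      simp only [(𝒞.e i).left_inv (mem_KK.1 (hgK w (hbs hw))).1]
    refine (h1.congr ?_).congr_right h2
    filter_upwards [H] with k hk w hw
    simp only [(𝒞.e i).left_inv (mem_KK.1 (hk.1 w (hbs hw)).2).1]

/-- **Normal families.** A sequence of maps to the compact manifold `X`, eventually holomorphic and
of bounded speed near each point of the open set `U`, has a subsequence which converges locally
uniformly on `U` to a holomorphic map. -/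
theorem normal [T2Space X] [CompactSpace X] (hh : IsHermitian h) (hU : IsOpen U)
    (F : ℕ → ℂ → X)
    (H : ∀ z ∈ U, ∃ ρ > 0, ∃ C : ℝ, ∀ᶠ k in atTop, ∀ w ∈ ball z ρ,
      HolAt n (F k) w ∧ spd h (F k) w ≤ C) :
    ∃ φ : ℕ → ℕ, StrictMono φ ∧ ∃ g : ℂ → X, HolOn n g U ∧ ConvOn n (fun k => F (φ k)) g U := by
  obtain ⟨𝒞⟩ := Cov.nonempty (Cm n) X
  obtain ⟨L, hL⟩ := exists_cov_const 𝒞 hh
  have hL' : CovConst 𝒞 h L := hL
  haveI : SecondCountableTopology X := ChartedSpace.secondCountable_of_sigmaCompact (Cm n) X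
  set q : ℕ → ℂ := TopologicalSpace.denseSeq ℂ with hq
  have hqd : DenseRange q := TopologicalSpace.denseRange_denseSeq ℂ
  obtain ⟨a, φ, hφ, ha⟩ := CompactSpace.tendsto_subseq (fun k : ℕ => fun j : ℕ => F k (q j))
  have ha' : ∀ j, Tendsto (fun k => F (φ k) (q j)) atTop (𝓝 (a j)) := fun j =>
    (tendsto_pi_nhds.1 ha) j
  have hloc : ∀ z ∈ U, ∃ i : Fin 𝒞.N, ∃ δ > 0, ∃ Λ : ℝ, ball z δ ⊆ U ∧
      (∀ᶠ k in atTop, (∀ w ∈ ball z δ, HolAt n (F (φ k)) w ∧ F (φ k) w ∈ KK 𝒞 i) ∧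
        ∀ w ∈ ball z δ, ∀ w' ∈ ball z δ,
          ‖𝒞.e i (F (φ k) w) - 𝒞.e i (F (φ k) w')‖ ≤ Λ * ‖w - w'‖) := by
    intro z hz
    refine local_chart hL' hh (F := fun k => F (φ k)) hqd ha' (hU.mem_nhds hz) ?_
    obtain ⟨ρ, hρ, C, hC⟩ := H z hz
    exact ⟨ρ, hρ, C, hφ.tendsto_atTop.eventually hC⟩
  have hlim : ∀ w, ∃ x : X, w ∈ U → Tendsto (fun k => F (φ k) w) atTop (𝓝 x) := by
    intro w
    by_cases hw : w ∈ U
    · obtain ⟨i, δ, hδ, Λ, hb, hi⟩ := hloc w hw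
      obtain ⟨x, hx⟩ := exists_limit (F := fun k => F (φ k)) hqd ha' hi (mem_ball_self hδ)
      exact ⟨x, fun _ => hx⟩
    · exact ⟨F 0 0, fun h => absurd h hw⟩
  choose g hg using hlim
  refine ⟨φ, hφ, g, fun z hz => ?_, fun z hz e he => ?_⟩
  · obtain ⟨i, δ, hδ, Λ, hb, hi⟩ := hloc z hz
    exact (conv_of_chart (F := fun k => F (φ k)) hδ hi fun w hw => hg w (hb hw)).1
  · obtain ⟨i, δ, hδ, Λ, hb, hi⟩ := hloc z hz
    obtain ⟨ρ, hρ, hρδ, h1, h2, h3⟩ :=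
      (conv_of_chart (F := fun k => F (φ k)) hδ hi fun w hw => hg w (hb hw)).2 e he
    exact ⟨ρ, hρ, (ball_subset_ball hρδ).trans hb, h1, h2, h3⟩

end Vale.Agent.P272.BR
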