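import Vale.Agent.P272.BR.Max
import Mathlib.MeasureTheory.Function.Jacobian
import Mathlib.RingTheory.Complex
import Mathlib.Analysis.Complex.OpenMapping

/-! The functional `T` of the composition with an injective holomorphic map of the disc. -/

open scoped Manifold ContDiff ComplexOrder Topology ENNReal
open Complex Set Filter Metric MeasureTheory

set_option linter.all false

noncomputable section

namespace Vale.Agent.P272.BR

open Vale.Agent.P272.K Vale.Agent.P272.GJ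

lemma det_smulRight_complex (a : ℂ) :
    ((ContinuousLinearMap.smulRight (1 : ℂ →L[ℂ] ℂ) a).restrictScalars ℝ).det = ‖a‖ ^ 2 := by
  have h1 : ((ContinuousLinearMap.smulRight (1 : ℂ →L[ℂ] ℂ) a).restrictScalars ℝ).det =
      LinearMap.det (Algebra.lmul ℝ ℂ a) := by
    unfold ContinuousLinearMap.det
    congr 1
    ext z <;> simp [mul_comm]
  rw [h1]
  have := Algebra.norm_complex_apply a
  rw [Algebra.norm_apply] at this
  rw [this, Complex.normSq_eq_norm_sq]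

/-- change of variables for an injective holomorphic map -/
lemma lintegral_image_holo {φ : ℂ → ℂ} {U : Set ℂ} (hU : IsOpen U) (hd : DifferentiableOn ℂ φ U)
    (hinj : InjOn φ U) (g : ℂ → ℝ≥0∞) :
    ∫⁻ x in φ '' U, g x = ∫⁻ z in U, ENNReal.ofReal (‖deriv φ z‖ ^ 2) * g (φ z) := by
  have h1 : ∀ x ∈ U, HasFDerivWithinAt φ
      ((ContinuousLinearMap.smulRight (1 : ℂ →L[ℂ] ℂ) (deriv φ x)).restrictScalars ℝ) U x := by
    intro x hx
    have h2 : HasDerivAt φ (deriv φ x) x := (hd.differentiableAt (hU.mem_nhds hx)).hasDerivAt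
    exact (h2.hasFDerivAt.restrictScalars ℝ).hasFDerivWithinAt
  rw [lintegral_image_eq_lintegral_abs_det_fderiv_mul volume hU.measurableSet h1 hinj]
  refine setLIntegral_congr_fun hU.measurableSet fun z hz => ?_
  simp only [det_smulRight_complex]
  rw [abs_of_nonneg (by positivity)]

section
variable {n : ℕ} {X : Type*} [TopologicalSpace X] [ChartedSpace (Cm n) X]
  {h : Chart n X → Cm n → Matrix (Fin n) (Fin n) ℂ} {f : ℂ → X} {φ : ℂ → ℂ}
  [IsManifold 𝓘(ℂ, Cm n) ω X]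

/-- `Gr 1 z ≤ Gr 1 (φ z)` when `|φ z| ≤ |z|` and `φ` is injective -/
lemma Gr_le_comp (hinj : InjOn φ (ball (0:ℂ) 1)) (hle : ∀ z ∈ ball (0:ℂ) 1, ‖φ z‖ ≤ ‖z‖)
    {z : ℂ} (hz : z ∈ ball (0:ℂ) 1) : Gr 1 z ≤ Gr 1 (φ z) := by
  have h0 : φ 0 = 0 := by
    have := hle 0 (by simp)
    simpa using this
  rcases eq_or_ne z 0 with rfl | hz0
  · rw [h0]
  · have h1 : φ z ≠ 0 := by
      intro h2
      exact hz0 (hinj hz (by simp) (h2.trans h0.symm))
    unfold Gr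
    refine mul_le_mul_of_nonneg_left ?_ (by positivity)
    refine Real.log_le_log (by positivity) ?_
    exact one_div_le_one_div_of_le (norm_pos_iff.2 h1) (hle z hz)

/-- the exact formula -/
theorem TE_comp_add (hh : IsHermitian h) (hf : HolOn n f (ball (0:ℂ) 1))
    (hd : DifferentiableOn ℂ φ (ball (0:ℂ) 1)) (hinj : InjOn φ (ball (0:ℂ) 1))
    (hmaps : MapsTo φ (ball (0:ℂ) 1) (ball (0:ℂ) 1))
    (hle : ∀ z ∈ ball (0:ℂ) 1, ‖φ z‖ ≤ ‖z‖) :
    TE h (fun z => f (φ z)) 1 +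
      (∫⁻ z in ball (0:ℂ) 1, ENNReal.ofReal ((Gr 1 (φ z) - Gr 1 z) *
        (‖deriv φ z‖ ^ 2 * spd h f (φ z)))) +
      ∫⁻ z in ball (0:ℂ) 1 \ φ '' ball (0:ℂ) 1, ENNReal.ofReal (Gr 1 z * spd h f z) =
    TE h f 1 := by
  have hopen : IsOpen (φ '' ball (0:ℂ) 1) := by
    have hder : ∀ z ∈ ball (0:ℂ) 1, AnalyticAt ℂ φ z := fun z hz =>
      hd.analyticAt (isOpen_ball.mem_nhds hz)
    have hao : AnalyticOnNhd ℂ φ (ball (0:ℂ) 1) := hder
    have hpre : IsPreconnected (ball (0:ℂ) 1) := (convex_ball (0:ℂ) 1).isPreconnected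
    rcases AnalyticOnNhd.is_constant_or_isOpen hao hpre with ⟨w, hw⟩ | ho
    · exfalso
      have h1 := hinj (x₁ := 0) (x₂ := 1/2) (by simp) (by simp; norm_num)
        ((hw 0 (by simp)).trans (hw (1/2) (by simp; norm_num)).symm)
      norm_num at h1
    · exact ho _ Subset.rfl isOpen_ball
  have hsub : φ '' ball (0:ℂ) 1 ⊆ ball (0:ℂ) 1 := hmaps.image_subset
  have hcont : ContinuousOn (spd h f) (ball (0:ℂ) 1) := hf.continuousOn_spd isOpen_ball hh
  have hspd : ∀ z ∈ ball (0:ℂ) 1, spd h (fun ζ => f (φ ζ)) z =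
      ‖deriv φ z‖ ^ 2 * spd h f (φ z) := fun z hz =>
    spd_comp (hf _ (hmaps hz)) (hd.differentiableAt (isOpen_ball.mem_nhds hz))
  -- the sum of the two first terms is the integral over the image
  have hfirst : TE h (fun z => f (φ z)) 1 +
      (∫⁻ z in ball (0:ℂ) 1, ENNReal.ofReal ((Gr 1 (φ z) - Gr 1 z) *
        (‖deriv φ z‖ ^ 2 * spd h f (φ z)))) =
      ∫⁻ z in φ '' ball (0:ℂ) 1, ENNReal.ofReal (Gr 1 z * spd h f z) := by
    rw [lintegral_image_holo isOpen_ball hd hinj]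
    unfold TE TL
    rw [← lintegral_add_left']
    · refine setLIntegral_congr_fun measurableSet_ball fun z hz => ?_
      have hn : 0 ≤ ‖deriv φ z‖ ^ 2 * spd h f (φ z) :=
        mul_nonneg (by positivity) (spd_nonneg hh _ _)
      beta_reduce
      rw [hspd z hz, ← ENNReal.ofReal_add (mul_nonneg (Gr_nonneg hz) hn)
        (mul_nonneg (sub_nonneg.2 (Gr_le_comp hinj hle hz)) hn),
        ← ENNReal.ofReal_mul (by positivity)]
      congr 1
      ring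
    · have hc2 : ContinuousOn (spd h fun z => f (φ z)) (ball (0:ℂ) 1) := by
        refine HolOn.continuousOn_spd isOpen_ball hh (hf.comp fun z hz => ⟨?_, hmaps hz⟩)
        exact hd.differentiableAt (isOpen_ball.mem_nhds hz)
      exact aemeasurable_integrand (hc2.aemeasurable measurableSet_ball) 1
  rw [hfirst]
  have h3 := lintegral_inter_add_diff (μ := volume)
    (fun z => ENNReal.ofReal (Gr 1 z * spd h f z)) (ball (0:ℂ) 1) hopen.measurableSet
  rw [inter_eq_right.2 hsub] at h3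
  exact h3

/-- the form used by the competitors -/
theorem TE_comp_le (hh : IsHermitian h) (hf : HolOn n f (ball (0:ℂ) 1))
    (hd : DifferentiableOn ℂ φ (ball (0:ℂ) 1)) (hinj : InjOn φ (ball (0:ℂ) 1))
    (hmaps : MapsTo φ (ball (0:ℂ) 1) (ball (0:ℂ) 1))
    (hle : ∀ z ∈ ball (0:ℂ) 1, ‖φ z‖ ≤ ‖z‖) :
    TE h (fun z => f (φ z)) 1 +
      ∫⁻ z in ball (0:ℂ) 1 \ φ '' ball (0:ℂ) 1, ENNReal.ofReal (Gr 1 z * spd h f z) ≤
    TE h f 1 := by
  rw [← TE_comp_add hh hf hd hinj hmaps hle]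
  gcongr
  exact le_self_add

/-- removing a set `A` which the competitor avoids: `T(f ∘ φ) + ∫_A G |f'|² ≤ T(f)` in `ℝ` -/
theorem TR_comp_le (hh : IsHermitian h) (hf : HolOn n f (ball (0:ℂ) 1)) (hfin : TE h f 1 < ⊤)
    (hd : DifferentiableOn ℂ φ (ball (0:ℂ) 1)) (hinj : InjOn φ (ball (0:ℂ) 1))
    (hmaps : MapsTo φ (ball (0:ℂ) 1) (ball (0:ℂ) 1))
    (hle : ∀ z ∈ ball (0:ℂ) 1, ‖φ z‖ ≤ ‖z‖) {A : Set ℂ} (hA : MeasurableSet A)
    (hA1 : A ⊆ ball (0:ℂ) 1) (hA2 : ∀ z ∈ ball (0:ℂ) 1, φ z ∉ A) :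
    TE h (fun z => f (φ z)) 1 < ⊤ ∧
    TR h (fun z => f (φ z)) 1 + ∫ z in A, Gr 1 z * spd h f z ≤ TR h f 1 := by
  have h1 := TE_comp_le hh hf hd hinj hmaps hle
  have h2 : ∫⁻ z in A, ENNReal.ofReal (Gr 1 z * spd h f z) ≤
      ∫⁻ z in ball (0:ℂ) 1 \ φ '' ball (0:ℂ) 1, ENNReal.ofReal (Gr 1 z * spd h f z) := by
    refine lintegral_mono_set fun z hz => ⟨hA1 hz, ?_⟩
    rintro ⟨y, hy, rfl⟩
    exact hA2 y hy hz
  have h3 : TE h (fun z => f (φ z)) 1 + ∫⁻ z in A, ENNReal.ofReal (Gr 1 z * spd h f z) ≤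
      TE h f 1 := le_trans (by gcongr) h1
  have h4 : TE h (fun z => f (φ z)) 1 < ⊤ :=
    lt_of_le_of_lt (le_trans le_self_add h3) hfin
  have h5 : ∫⁻ z in A, ENNReal.ofReal (Gr 1 z * spd h f z) < ⊤ :=
    lt_of_le_of_lt (le_trans le_add_self h3) hfin
  refine ⟨h4, ?_⟩
  have hcont : ContinuousOn (spd h f) (ball (0:ℂ) 1) := hf.continuousOn_spd isOpen_ball hh
  have h6 : ∫ z in A, Gr 1 z * spd h f z =
      (∫⁻ z in A, ENNReal.ofReal (Gr 1 z * spd h f z)).toReal := by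
    rw [integral_eq_lintegral_of_nonneg_ae]
    · exact (ae_restrict_iff' hA).2 (Eventually.of_forall fun z hz =>
        mul_nonneg (Gr_nonneg (hA1 hz)) (spd_nonneg hh _ _))
    · exact ((measurable_Gr 1).aemeasurable.mul
        ((hcont.mono hA1).aemeasurable hA)).aestronglyMeasurable
  rw [h6]
  unfold TR
  rw [← ENNReal.toReal_add h4.ne h5.ne]
  exact ENNReal.toReal_mono hfin.ne h3

variable {w w' : Chart n X → Cm n → Matrix (Fin n) (Fin n) ℂ}

/-- composition with a competitor keeps a disc admissible -/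
lemma Adm.comp {x : X} (hw' : IsHermitian w') (hf : Adm n w' x f)
    (hd : DifferentiableOn ℂ φ (ball (0:ℂ) 1)) (hinj : InjOn φ (ball (0:ℂ) 1))
    (hmaps : MapsTo φ (ball (0:ℂ) 1) (ball (0:ℂ) 1))
    (hle : ∀ z ∈ ball (0:ℂ) 1, ‖φ z‖ ≤ ‖z‖) : Adm n w' x (fun z => f (φ z)) := by
  have h0 : φ 0 = 0 := by
    have := hle 0 (by simp)
    simpa using this
  refine ⟨hf.1.comp fun z hz => ⟨hd.differentiableAt (isOpen_ball.mem_nhds hz), hmaps hz⟩, ?_, ?_⟩
  · simp only [h0]; exact hf.2.1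
  · exact (TR_comp_le hw' hf.1 hf.2.2 hd hinj hmaps hle MeasurableSet.empty (empty_subset _)
      (fun z _ => notMem_empty _)).1

/-- **the inequality given by a competitor** `f ∘ φ`, `φ(D)` avoiding `A`, at a maximiser `f` of
`|f'(0)|_w² + μ T^{(r)}_w - λ T_{w'}` -/
theorem max_comp {x : X} {lam mu r : ℝ} (hlam : 0 ≤ lam) (hw' : IsHermitian w')
    (hf : Adm n w' x f)
    (hmax : ∀ g : ℂ → X, Adm n w' x g → Phi w w' lam mu r g ≤ Phi w w' lam mu r f)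
    (hd : DifferentiableOn ℂ φ (ball (0:ℂ) 1)) (hinj : InjOn φ (ball (0:ℂ) 1))
    (hmaps : MapsTo φ (ball (0:ℂ) 1) (ball (0:ℂ) 1))
    (hle : ∀ z ∈ ball (0:ℂ) 1, ‖φ z‖ ≤ ‖z‖) {A : Set ℂ} (hA : MeasurableSet A)
    (hA1 : A ⊆ ball (0:ℂ) 1) (hA2 : ∀ z ∈ ball (0:ℂ) 1, φ z ∉ A) :
    lam * ∫ z in A, Gr 1 z * spd w' f z ≤ (1 - ‖deriv φ 0‖ ^ 2) * spd w f 0 +
      mu * (TR w f r - TR w (fun z => f (φ z)) r) := by
  have h0 : φ 0 = 0 := by
    have := hle 0 (by simp)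
    simpa using this
  have h1 := hmax _ (hf.comp hw' hd hinj hmaps hle)
  have h2 := (TR_comp_le hw' hf.1 hf.2.2 hd hinj hmaps hle hA hA1 hA2).2
  have h3 : spd w (fun z => f (φ z)) 0 = ‖deriv φ 0‖ ^ 2 * spd w f 0 := by
    have h4 := spd_comp (h := w) (f := f) (φ := φ) (z := 0)
      (hf.1 _ (by rw [h0]; simp)) (hd.differentiableAt (isOpen_ball.mem_nhds (by simp)))
    rwa [h0] at h4
  have h5 := mul_le_mul_of_nonneg_left h2 hlam
  unfold Phi at h1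
  rw [h3] at h1
  linarith

/-- the case `μ = 0` -/
theorem max_comp_zero {x : X} {lam r : ℝ} (hlam : 0 ≤ lam) (hw' : IsHermitian w')
    (hf : Adm n w' x f)
    (hmax : ∀ g : ℂ → X, Adm n w' x g → Phi w w' lam 0 r g ≤ Phi w w' lam 0 r f)
    (hd : DifferentiableOn ℂ φ (ball (0:ℂ) 1)) (hinj : InjOn φ (ball (0:ℂ) 1))
    (hmaps : MapsTo φ (ball (0:ℂ) 1) (ball (0:ℂ) 1))
    (hle : ∀ z ∈ ball (0:ℂ) 1, ‖φ z‖ ≤ ‖z‖) {A : Set ℂ} (hA : MeasurableSet A)
    (hA1 : A ⊆ ball (0:ℂ) 1) (hA2 : ∀ z ∈ ball (0:ℂ) 1, φ z ∉ A) :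
    lam * ∫ z in A, Gr 1 z * spd w' f z ≤ (1 - ‖deriv φ 0‖ ^ 2) * spd w f 0 := by
  have := max_comp hlam hw' hf hmax hd hinj hmaps hle hA hA1 hA2
  simpa using this

end

end Vale.Agent.P272.BR
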